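import Vale.Agent.P076.H879.Defs

/-! # P076 / H322 : the structure theorem [ST], statements

`D = 2 ^ n`, `L = D ^ K`, `R = L²`.

* `StKPG` : the estimate with gain for sets `G B` of finest caps which are unions of caps of level `j` and depend (up to `27`
  values) only on the `L`-ball of `B`; loss `D ^ C1`, `C1` and the exponent `c1` of the gain independent of `j` and `K`.
* `StSC` : one single cap of level `j` at every cube: gain `D ^ (- j / 3)`.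
* `NoPlD` : no thick plate.
* `StNSd` : no thick plate: gain `D ^ (- J)` for every `J`.
* `StST` : the block `NS.ST`. -/

set_option autoImplicit false

open MeasureTheory Complex Set Vale.Agent.P122.C2 Vale.Agent.P122.AN Vale.Agent.P076.NS Vale.Agent.P076.H879
open scoped ENNReal NNReal FourierTransform

namespace Vale.Agent.P076.H322

/-- [KPG] -/
def StKPG : Prop := ∃ C1 c1 : ℝ, 0 < c1 ∧ ∀ j : ℕ, ∃ K0 : ℕ, ∀ K : ℕ, K0 ≤ K → ∃ M0 : ℕ, ∀ M : ℕ, M0 ≤ M → ∀ C0 : ℝ, 1 ≤ C0 →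
  ∃ C : ℝ, 0 ≤ C ∧ ∀ n : ℕ, 1 ≤ n → Claim c1 C0 M K n j 27 (C * 2 ^ (C1 * n))

/-- [SC] -/
def StSC : Prop := ∃ C1 : ℝ, ∀ j : ℕ, ∃ K0 : ℕ, ∀ K : ℕ, K0 ≤ K → ∃ M0 : ℕ, ∀ M : ℕ, M0 ≤ M → ∀ C0 : ℝ, 1 ≤ C0 →
  ∃ C : ℝ, 0 ≤ C ∧ ∀ (n : ℕ) (g : Z2 → E3 → ℂ) (Y : Finset (Fin 3 → ℤ)) (γ β : ℝ), 1 ≤ n → Par C0 K n g → 0 < γ → γ ≤ C0 →
    Dim2 K n Y γ → 0 < β →
    (∀ B ∈ Y, ∃ τ : Z2, Cap n j τ ∧ ENNReal.ofReal (β ^ 6) ≤ b6 M n B (pie K n g j τ)) →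
    ENNReal.ofReal (β ^ 2 * Y.card) ≤
      ENNReal.ofReal (C * 2 ^ ((C1 - j / 3) * n) * γ ^ (2 / 3 : ℝ) * 2 ^ (4 / 3 * (K * n : ℝ))) * ms K n g

/-- no thick plate: the tubes `S` of level `K` of one time slab `T = O(D)`, near the cube of side `D R`, whose slopes and
positions are in a plate of thickness `L ^ c` carry at most the energy `L ^ (- c) R⁻¹ Q` -/
def NoPlD (M K n : ℕ) (g : Z2 → E3 → ℂ) (c C0 Q : ℝ) : Prop := ∀ (T : ℤ) (θ v b : ℝ) (U : Finset Nd),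
  |(T : ℝ)| ≤ C0 * 2 ^ n →
  (∀ S ∈ U, S.T = T ∧ |fn θ (slp n K S.τ) - v| ≤ 2 ^ (c * (K * n)) / 2 ^ (K * n) ∧
    |fn θ (fun k => (S.o k : ℝ)) - b| ≤ 2 ^ (c * (K * n)) ∧ ∀ k, |(S.o k : ℝ)| ≤ C0 * 2 ^ n * 2 ^ (K * n)) →
  ∑ S ∈ U, am2 M n K S (𝓕⁻ (g S.τ)) ≤ ENNReal.ofReal (2 ^ (-c * (K * n)) * ((2 ^ (2 * K * n))⁻¹ * Q))

/-- **[NSd]** no thick plate: gain; atoms = cubes of side `2 ^ (2 n)`, `L⁶` means. `J` = any number -/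
def StNSd : Prop := ∀ c J : ℝ, 0 < c → ∃ K0 : ℕ, ∀ K : ℕ, K0 ≤ K → ∃ M0 : ℕ, ∀ M : ℕ, M0 ≤ M → ∀ C0 : ℝ, 1 ≤ C0 →
  ∃ C : ℝ, 0 ≤ C ∧ ∀ (n : ℕ) (g : Z2 → E3 → ℂ) (Y : Finset (Fin 3 → ℤ)) (β Q : ℝ), 1 ≤ n → Par C0 K n g →
    Dim2 K n Y C0 → (∀ B ∈ Y, ‖cB n B‖ ≤ C0 * 2 ^ (2 * K * n)) → 0 ≤ β → 0 ≤ Q →
    (∀ B ∈ Y, ENNReal.ofReal (β ^ 6) ≤ b6 M n B (pie K n g 0 0)) →
    ms K n g ≤ ENNReal.ofReal Q → NoPlD M K n g c C0 Q →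
      β ^ 2 * Y.card ≤ C * 2 ^ (-(J * n)) * 2 ^ (4 / 3 * (K * n : ℝ)) * Q

/-- **the block NS.ST** -/
def StST : Prop := StKPG → StSC → StNSd

end Vale.Agent.P076.H322
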