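import Vale.Agent.P122.C.Defs2

/-! # P076 / H322 : two tubes through one ball (combinatorial part of the structure theorem)

Tubes `i` with offset `o i`, slope `v i`, weight `w i`; balls `P = (time, position)` of a lattice; `G P` = a set of tubes
through `P`.  If all `P ∈ Y` carry weight `≥ Θ`, there are many balls (`#Y Θ ≥ 2 κ N Q`) and the slopes at a ball are not
concentrated, then a positive proportion of all tubes lies in one plate. -/

set_option autoImplicit false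

open Finset Vale.Agent.P122.C2

namespace Vale.Agent.P076.H322

/-- the tube with offset `o` and slope `v` passes through the ball `P` -/
def Thr (C0 : ℝ) (o v : Fin 2 → ℝ) (P : ℤ × (Fin 2 → ℤ)) : Prop :=
  ∀ k, |(P.2 k : ℝ) - o k - P.1 * v k| ≤ C0

/-! ### counting balls -/

theorem card_int {S : Finset ℤ} {a b : ℝ} (hab : a ≤ b) (h : ∀ x ∈ S, a ≤ x ∧ (x : ℝ) ≤ b) : (S.card : ℝ) ≤ b - a + 1 := by
  have h1 : S ⊆ Finset.Icc ⌈a⌉ ⌊b⌋ := fun x hx => by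
    rw [Finset.mem_Icc]
    exact ⟨Int.ceil_le.2 (h x hx).1, Int.le_floor.2 (h x hx).2⟩
  have h2 : (S.card : ℝ) ≤ ((Finset.Icc ⌈a⌉ ⌊b⌋).card : ℝ) := by exact_mod_cast Finset.card_le_card h1
  rw [Int.card_Icc] at h2
  have h3 : ((⌊b⌋ + 1 - ⌈a⌉).toNat : ℝ) ≤ b - a + 1 := by
    rcases le_total 0 (⌊b⌋ + 1 - ⌈a⌉) with h4 | h4
    · have h5 : ((⌊b⌋ + 1 - ⌈a⌉).toNat : ℝ) = ((⌊b⌋ + 1 - ⌈a⌉ : ℤ) : ℝ) := by
        exact_mod_cast Int.toNat_of_nonneg h4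
      rw [h5]
      push_cast
      have := Int.floor_le b
      have := Int.le_ceil a
      linarith
    · rw [Int.toNat_of_nonpos h4]
      simp only [Nat.cast_zero]
      linarith
  exact h2.trans h3

theorem card_fiber {S : Finset (ℤ × (Fin 2 → ℤ))} {j : ℤ} {f : Fin 2 → ℝ} {C0 : ℝ} (hC : 0 ≤ C0)
    (h : ∀ P ∈ S, P.1 = j ∧ ∀ k, |(P.2 k : ℝ) - f k| ≤ C0) : (S.card : ℝ) ≤ (2 * C0 + 1) ^ 2 := by
  classical
  have h0 : ∀ k, ((Finset.Icc ⌈f k - C0⌉ ⌊f k + C0⌋).card : ℝ) ≤ 2 * C0 + 1 := fun k => by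
    have := card_int (S := Finset.Icc ⌈f k - C0⌉ ⌊f k + C0⌋) (a := f k - C0) (b := f k + C0) (by linarith) (by
      intro x hx
      rw [Finset.mem_Icc] at hx
      exact ⟨Int.ceil_le.1 hx.1, Int.le_floor.1 hx.2⟩)
    linarith
  have h1 : S.card ≤ (Fintype.piFinset fun k => Finset.Icc ⌈f k - C0⌉ ⌊f k + C0⌋).card := by
    refine Finset.card_le_card_of_injOn (fun P => P.2) ?_ ?_
    · intro P hP
      simp only [Finset.mem_coe, Fintype.mem_piFinset, Finset.mem_Icc]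
      intro k
      have := abs_le.1 ((h P hP).2 k)
      exact ⟨Int.ceil_le.2 (by linarith [this.1]), Int.le_floor.2 (by linarith [this.2])⟩
    · intro P hP P' hP' e
      exact Prod.ext ((h P hP).1.trans (h P' hP').1.symm) e
  have h2 : ((Fintype.piFinset fun k => Finset.Icc ⌈f k - C0⌉ ⌊f k + C0⌋).card : ℝ) =
      ((Finset.Icc ⌈f 0 - C0⌉ ⌊f 0 + C0⌋).card : ℝ) * ((Finset.Icc ⌈f 1 - C0⌉ ⌊f 1 + C0⌋).card : ℝ) := by
    rw [Fintype.card_piFinset, Fin.prod_univ_two]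
    push_cast
    rfl
  have h3 : (S.card : ℝ) ≤ ((Fintype.piFinset fun k => Finset.Icc ⌈f k - C0⌉ ⌊f k + C0⌋).card : ℝ) := by exact_mod_cast h1
  rw [h2] at h3
  have := mul_le_mul (h0 0) (h0 1) (Nat.cast_nonneg _) (by linarith)
  nlinarith

theorem card_balls {S : Finset (ℤ × (Fin 2 → ℤ))} {a b : ℝ} {f : ℤ → Fin 2 → ℝ} {C0 : ℝ} (hC : 0 ≤ C0) (hab : a ≤ b)
    (h : ∀ P ∈ S, a ≤ P.1 ∧ (P.1 : ℝ) ≤ b ∧ ∀ k, |(P.2 k : ℝ) - f P.1 k| ≤ C0) :
    (S.card : ℝ) ≤ (b - a + 1) * (2 * C0 + 1) ^ 2 := by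
  classical
  have h1 : S.card = ∑ j ∈ S.image Prod.fst, (S.filter fun P => P.1 = j).card :=
    Finset.card_eq_sum_card_image _ _
  have h2 : ∀ j ∈ S.image Prod.fst, ((S.filter fun P => P.1 = j).card : ℝ) ≤ (2 * C0 + 1) ^ 2 := fun j _ => by
    refine card_fiber (j := j) (f := f j) hC fun P hP => ?_
    rw [Finset.mem_filter] at hP
    refine ⟨hP.2, fun k => ?_⟩
    have := (h P hP.1).2.2 k
    rwa [hP.2] at this
  have h3 : ((S.image Prod.fst).card : ℝ) ≤ b - a + 1 := by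
    refine card_int hab fun x hx => ?_
    obtain ⟨P, hP, rfl⟩ := Finset.mem_image.1 hx
    exact ⟨(h P hP).1, (h P hP).2.1⟩
  calc (S.card : ℝ) = ∑ j ∈ S.image Prod.fst, ((S.filter fun P => P.1 = j).card : ℝ) := by
        rw [h1]
        push_cast
        rfl
    _ ≤ ∑ _j ∈ S.image Prod.fst, (2 * C0 + 1) ^ 2 := Finset.sum_le_sum h2
    _ = ((S.image Prod.fst).card : ℝ) * (2 * C0 + 1) ^ 2 := by rw [Finset.sum_const, nsmul_eq_mul]
    _ ≤ (b - a + 1) * (2 * C0 + 1) ^ 2 := mul_le_mul_of_nonneg_right h3 (by positivity)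

/-! ### data -/

/-- tubes, balls, incidences -/
structure Inc (ι : Type*) where
  T : Finset ι
  w : ι → ℝ
  o : ι → Fin 2 → ℝ
  v : ι → Fin 2 → ℝ
  Y : Finset (ℤ × (Fin 2 → ℤ))
  G : ℤ × (Fin 2 → ℤ) → Finset ι
  C0 : ℝ
  N : ℝ
  Q : ℝ
  Th : ℝ
  C1 : 1 ≤ C0
  N1 : 1 ≤ N
  w0 : ∀ i, 0 ≤ w i
  Q0 : 0 < Q
  wQ : ∑ i ∈ T, w i ≤ Q
  v1 : ∀ i ∈ T, ∀ k, |v i k| ≤ 1
  GT : ∀ P ∈ Y, G P ⊆ T
  thr : ∀ P ∈ Y, ∀ i ∈ G P, Thr C0 (o i) (v i) P
  t0 : ∀ P ∈ Y, 0 ≤ P.1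
  tN : ∀ P ∈ Y, (P.1 : ℝ) ≤ N
  Th0 : 0 < Th
  ThG : ∀ P ∈ Y, Th ≤ ∑ i ∈ G P, w i

variable {ι : Type*} (I : Inc ι)

namespace Inc

open Classical in
/-- the balls of the tube `i` -/
noncomputable def Yt (i : ι) : Finset (ℤ × (Fin 2 → ℤ)) := I.Y.filter fun P => i ∈ I.G P

open Classical in
/-- typical tubes -/
noncomputable def Ty (κ : ℝ) : Finset ι := I.T.filter fun i => κ * I.N ≤ (I.Yt i).card

open Classical in
theorem exists_typ {κ : ℝ} (hκ : 0 < κ) (hY : 2 * κ * I.N * I.Q < I.Y.card * I.Th) :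
    ∃ p ∈ I.Y, (1 / 2) * ∑ i ∈ I.G p, I.w i ≤ ∑ i ∈ (I.G p).filter (fun i => i ∈ I.Ty κ), I.w i := by
  by_contra hcon
  push Not at hcon
  have h1 : ∀ p ∈ I.Y, (1 / 2) * I.Th ≤ ∑ i ∈ I.G p \ I.Ty κ, I.w i := fun p hp => by
    have h2 := hcon p hp
    have h3 := I.ThG p hp
    have h4 := Finset.sum_filter_add_sum_filter_not (I.G p) (fun i => i ∈ I.Ty κ) I.w
    have h5 : (I.G p).filter (fun i => ¬ i ∈ I.Ty κ) = I.G p \ I.Ty κ := by
      ext i
      simp [Finset.mem_sdiff]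
    rw [h5] at h4
    linarith
  have h5 : (I.Y.card : ℝ) * ((1 / 2) * I.Th) ≤ ∑ p ∈ I.Y, ∑ i ∈ I.G p \ I.Ty κ, I.w i := by
    rw [← nsmul_eq_mul, ← Finset.sum_const]
    exact Finset.sum_le_sum h1
  have h6 : ∑ p ∈ I.Y, ∑ i ∈ I.G p \ I.Ty κ, I.w i ≤ ∑ i ∈ I.T, κ * I.N * I.w i := by
    have h7 : ∀ p ∈ I.Y, ∑ i ∈ I.G p \ I.Ty κ, I.w i = ∑ i ∈ I.T \ I.Ty κ, if i ∈ I.G p then I.w i else 0 := fun p hp => by
      rw [← Finset.sum_filter]
      refine Finset.sum_congr ?_ fun _ _ => rfl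
      ext i
      simp only [Finset.mem_sdiff, Finset.mem_filter]
      constructor
      · rintro ⟨ha, hb⟩
        exact ⟨⟨I.GT p hp ha, hb⟩, ha⟩
      · rintro ⟨⟨_, hb⟩, ha⟩
        exact ⟨ha, hb⟩
    rw [Finset.sum_congr rfl h7, Finset.sum_comm]
    calc ∑ i ∈ I.T \ I.Ty κ, ∑ p ∈ I.Y, (if i ∈ I.G p then I.w i else 0)
        = ∑ i ∈ I.T \ I.Ty κ, ((I.Yt i).card : ℝ) * I.w i := by
          refine Finset.sum_congr rfl fun i _ => ?_
          rw [← Finset.sum_filter, Finset.sum_const, nsmul_eq_mul]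
          rfl
      _ ≤ ∑ i ∈ I.T \ I.Ty κ, κ * I.N * I.w i := by
          refine Finset.sum_le_sum fun i hi => mul_le_mul_of_nonneg_right ?_ (I.w0 i)
          rw [Finset.mem_sdiff] at hi
          by_contra hc
          push Not at hc
          exact hi.2 (Finset.mem_filter.2 ⟨hi.1, hc.le⟩)
      _ ≤ ∑ i ∈ I.T, κ * I.N * I.w i := by
          refine Finset.sum_le_sum_of_subset_of_nonneg Finset.sdiff_subset fun i _ _ => ?_
          have := I.w0 i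
          have := I.N1
          positivity
  rw [← Finset.mul_sum] at h6
  have h8 : κ * I.N * ∑ i ∈ I.T, I.w i ≤ κ * I.N * I.Q := by
    have := I.N1
    exact mul_le_mul_of_nonneg_left I.wQ (by positivity)
  nlinarith

open Classical in
/-- balls of the tube `i` far from `p` -/
noncomputable def Fr (r : ℝ) (p : ℤ × (Fin 2 → ℤ)) (i : ι) : Finset (ℤ × (Fin 2 → ℤ)) :=
  (I.Yt i).filter fun P => r < |(P.1 : ℝ) - p.1|

theorem card_Fr {κ r : ℝ} (p : ℤ × (Fin 2 → ℤ)) {i : ι} (hi : i ∈ I.Ty κ) (hr : 0 ≤ r)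
    (h : (2 * r + 1) * (2 * I.C0 + 1) ^ 2 ≤ κ * I.N / 2) : κ * I.N / 2 ≤ (I.Fr r p i).card := by
  classical
  have h1 : κ * I.N ≤ (I.Yt i).card := (Finset.mem_filter.1 hi).2
  have h2 : (((I.Yt i).filter fun P => ¬ (r < |(P.1 : ℝ) - p.1|)).card : ℝ) ≤
      ((p.1 + r) - (p.1 - r) + 1) * (2 * I.C0 + 1) ^ 2 := by
    refine card_balls (f := fun j k => I.o i k + j * I.v i k) (by linarith [I.C1]) (by linarith) fun P hP => ?_
    rw [Finset.mem_filter, not_lt] at hP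
    have h3 := abs_le.1 hP.2
    have h4 := Finset.mem_filter.1 hP.1
    refine ⟨by linarith [h3.1], by linarith [h3.2], fun k => ?_⟩
    have := I.thr P h4.1 i h4.2 k
    rwa [sub_sub] at this
  have h3 := Finset.card_filter_add_card_filter_not (s := I.Yt i) (fun P => r < |(P.1 : ℝ) - p.1|)
  have h4 : ((I.Fr r p i).card : ℝ) + (((I.Yt i).filter fun P => ¬ (r < |(P.1 : ℝ) - p.1|)).card : ℝ) = (I.Yt i).card := by
    rw [← h3, Nat.cast_add]
    rfl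
  have h5 : ((p.1 + r) - (p.1 - r) + 1) * (2 * I.C0 + 1) ^ 2 = (2 * r + 1) * (2 * I.C0 + 1) ^ 2 := by ring
  linarith

open Classical in
/-- tubes which cross the tube `i` at a ball of `A`, with an angle `> φ` -/
noncomputable def Nb (φ : ℝ) (A : Finset (ℤ × (Fin 2 → ℤ))) (i : ι) : Finset ι :=
  I.T.filter fun j => ∃ P ∈ A, j ∈ I.G P ∧ φ < ‖I.v j - I.v i‖

theorem card_cross {φ : ℝ} {A : Finset (ℤ × (Fin 2 → ℤ))} {i j : ι} (hA : A ⊆ I.Yt i) (hφ : 0 < φ) (hφ1 : φ ≤ 1)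
    (hj : φ < ‖I.v j - I.v i‖) : open Classical in
    ((A.filter fun P => j ∈ I.G P).card : ℝ) ≤ (2 * I.C0 + 1) ^ 2 * (4 * I.C0 + 1) / φ := by
  classical
  obtain ⟨k, hk⟩ : ∃ k, φ < |I.v j k - I.v i k| := by
    by_contra hc
    push Not at hc
    have : ‖I.v j - I.v i‖ ≤ φ := (pi_norm_le_iff_of_nonneg hφ.le).2 fun k => by
      rw [Pi.sub_apply, Real.norm_eq_abs]
      exact hc k
    linarith
  have hC := I.C1
  set d : ℝ := I.v j k - I.v i k with hd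
  have hd0 : d ≠ 0 := fun h => by rw [h, abs_zero] at hk; linarith
  have hdp : 0 < |d| := abs_pos.2 hd0
  set c : ℝ := -(I.o j k - I.o i k) / d with hc
  have h1 : ((A.filter fun P => j ∈ I.G P).card : ℝ) ≤
      ((c + 2 * I.C0 / φ) - (c - 2 * I.C0 / φ) + 1) * (2 * I.C0 + 1) ^ 2 := by
    refine card_balls (f := fun t k => I.o i k + t * I.v i k) (by linarith) (by
      have : 0 ≤ 2 * I.C0 / φ := by positivity
      linarith) fun P hP => ?_
    rw [Finset.mem_filter] at hP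
    have h4 := Finset.mem_filter.1 (hA hP.1)
    have h5 := I.thr P h4.1 i h4.2
    have h6 := I.thr P h4.1 j hP.2
    have h7 : |(P.1 : ℝ) - c| ≤ 2 * I.C0 / φ := by
      have h8 : |((P.1 : ℝ) - c) * d| ≤ 2 * I.C0 := by
        have e : ((P.1 : ℝ) - c) * d = ((P.2 k : ℝ) - I.o i k - P.1 * I.v i k) - ((P.2 k : ℝ) - I.o j k - P.1 * I.v j k) := by
          rw [hc]
          field_simp
          rw [hd]
          ring
        rw [e]
        exact (abs_sub _ _).trans (by linarith [h5 k, h6 k])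
      rw [abs_mul] at h8
      rw [le_div_iff₀ hφ]
      exact (mul_le_mul_of_nonneg_left hk.le (abs_nonneg _)).trans h8
    have h8 := abs_le.1 h7
    refine ⟨by linarith [h8.1], by linarith [h8.2], fun k => ?_⟩
    have := h5 k
    rwa [sub_sub] at this
  refine h1.trans ?_
  rw [le_div_iff₀ hφ]
  have e : ((c + 2 * I.C0 / φ) - (c - 2 * I.C0 / φ) + 1) * (2 * I.C0 + 1) ^ 2 * φ =
      (2 * I.C0 + 1) ^ 2 * (4 * I.C0 + φ) := by
    field_simp
    ring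
  rw [e]
  exact mul_le_mul_of_nonneg_left (by linarith) (by positivity)

/-- the tubes crossing `i` have large weight -/
theorem weight_Nb {κ φ : ℝ} {A : Finset (ℤ × (Fin 2 → ℤ))} {i : ι} (hA : A ⊆ I.Yt i) (hφ : 0 < φ) (hφ1 : φ ≤ 1)
    (hcard : κ * I.N / 2 ≤ A.card)
    (hsh : open Classical in ∀ P ∈ A, ∑ j ∈ (I.G P).filter (fun j => ‖I.v j - I.v i‖ ≤ φ), I.w j ≤ (1 / 2) * ∑ j ∈ I.G P, I.w j) :
    φ * κ * I.N * I.Th / (4 * ((2 * I.C0 + 1) ^ 2 * (4 * I.C0 + 1))) ≤ ∑ j ∈ I.Nb φ A i, I.w j := by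
  classical
  have hC := I.C1
  set D : ℝ := (2 * I.C0 + 1) ^ 2 * (4 * I.C0 + 1) with hD
  have hD0 : 0 < D := by positivity
  have h1 : ∀ P ∈ A, (1 / 2) * I.Th ≤ ∑ j ∈ (I.G P).filter (fun j => ¬ ‖I.v j - I.v i‖ ≤ φ), I.w j := fun P hP => by
    have h2 := hsh P hP
    have h3 := I.ThG P (Finset.mem_filter.1 (hA hP)).1
    have h4 := Finset.sum_filter_add_sum_filter_not (I.G P) (fun j => ‖I.v j - I.v i‖ ≤ φ) I.w
    linarith
  have h5 : (A.card : ℝ) * ((1 / 2) * I.Th) ≤ ∑ P ∈ A, ∑ j ∈ (I.G P).filter (fun j => ¬ ‖I.v j - I.v i‖ ≤ φ), I.w j := by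
    rw [← nsmul_eq_mul, ← Finset.sum_const]
    exact Finset.sum_le_sum h1
  have h6 : ∑ P ∈ A, ∑ j ∈ (I.G P).filter (fun j => ¬ ‖I.v j - I.v i‖ ≤ φ), I.w j ≤ ∑ j ∈ I.Nb φ A i, D / φ * I.w j := by
    have h7 : ∀ P ∈ A, ∑ j ∈ (I.G P).filter (fun j => ¬ ‖I.v j - I.v i‖ ≤ φ), I.w j ≤
        ∑ j ∈ I.Nb φ A i, if j ∈ I.G P then I.w j else 0 := fun P hP => by
      rw [← Finset.sum_filter]
      refine Finset.sum_le_sum_of_subset_of_nonneg (fun j hj => ?_) fun j _ _ => I.w0 j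
      rw [Finset.mem_filter, not_le] at hj
      rw [Finset.mem_filter]
      refine ⟨Finset.mem_filter.2 ⟨I.GT P (Finset.mem_filter.1 (hA hP)).1 hj.1, P, hP, hj.1, hj.2⟩, hj.1⟩
    refine (Finset.sum_le_sum h7).trans ?_
    rw [Finset.sum_comm]
    refine Finset.sum_le_sum fun j hj => ?_
    rw [← Finset.sum_filter, Finset.sum_const, nsmul_eq_mul]
    refine mul_le_mul_of_nonneg_right ?_ (I.w0 j)
    obtain ⟨_, P, _, _, h9⟩ := Finset.mem_filter.1 hj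
    exact I.card_cross hA hφ hφ1 h9
  rw [← Finset.mul_sum] at h6
  have h8 : κ * I.N / 2 * ((1 / 2) * I.Th) ≤ A.card * ((1 / 2) * I.Th) :=
    mul_le_mul_of_nonneg_right hcard (by have := I.Th0; positivity)
  have h9 : κ * I.N / 2 * ((1 / 2) * I.Th) ≤ D / φ * ∑ j ∈ I.Nb φ A i, I.w j := h8.trans (h5.trans h6)
  rw [div_le_iff₀ (by positivity)]
  have h10 : D / φ * (∑ j ∈ I.Nb φ A i, I.w j) * φ = D * ∑ j ∈ I.Nb φ A i, I.w j := by
    field_simp
  have h11 := mul_le_mul_of_nonneg_right h9 hφ.le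
  rw [h10] at h11
  nlinarith


/-! ### two tubes with many common neighbours -/

open Classical in
/-- Cauchy-Schwarz: sets `Nb i` of weight `≥ lam Q` in a set of weight `≤ Q` -/
theorem pairs {κ' : Type*} {T : Finset ι} {w : ι → ℝ} {Q lam : ℝ} (S : Finset κ') (u : κ' → ℝ) (Nb : κ' → Finset ι)
    (hw : ∀ i, 0 ≤ w i) (hu : ∀ i ∈ S, 0 ≤ u i) (hQ0 : 0 < Q) (hQ : ∑ i ∈ T, w i ≤ Q) (hlam : 0 ≤ lam)
    (hT : ∀ i ∈ S, Nb i ⊆ T) (hNb : ∀ i ∈ S, lam * Q ≤ ∑ j ∈ Nb i, w j) :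
    lam ^ 2 * Q * (∑ i ∈ S, u i) ^ 2 ≤ ∑ i ∈ S, ∑ j ∈ S, u i * u j * ∑ t ∈ (Nb i).filter (fun t => t ∈ Nb j), w t := by
  set F : ι → ℝ := fun t => ∑ i ∈ S, u i * (if t ∈ Nb i then 1 else 0) with hF
  have h1 : lam * Q * ∑ i ∈ S, u i ≤ ∑ t ∈ T, w t * F t := by
    have e : ∑ t ∈ T, w t * F t = ∑ i ∈ S, u i * ∑ j ∈ Nb i, w j := by
      simp only [hF, Finset.mul_sum]
      rw [Finset.sum_comm]
      refine Finset.sum_congr rfl fun i hi => ?_
      rw [← Finset.inter_eq_right.2 (hT i hi), ← Finset.filter_mem_eq_inter, Finset.sum_filter]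
      refine Finset.sum_congr rfl fun t ht => ?_
      by_cases hc : t ∈ Nb i
      · have : t ∈ T.filter (fun t => t ∈ Nb i) := Finset.mem_filter.2 ⟨ht, hc⟩
        simp [hc, this]
        ring
      · have : t ∉ T.filter (fun t => t ∈ Nb i) := fun h => hc (Finset.mem_filter.1 h).2
        simp [hc]
    rw [e, Finset.mul_sum]
    refine Finset.sum_le_sum fun i hi => ?_
    have := mul_le_mul_of_nonneg_left (hNb i hi) (hu i hi)
    linarith
  have h2 : (∑ t ∈ T, w t * F t) ^ 2 ≤ (∑ t ∈ T, w t) * ∑ t ∈ T, w t * F t ^ 2 := by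
    have := Finset.sum_mul_sq_le_sq_mul_sq T (fun t => Real.sqrt (w t)) (fun t => Real.sqrt (w t) * F t)
    calc (∑ t ∈ T, w t * F t) ^ 2 = (∑ t ∈ T, Real.sqrt (w t) * (Real.sqrt (w t) * F t)) ^ 2 := by
          congr 1
          refine Finset.sum_congr rfl fun t _ => ?_
          rw [← mul_assoc, Real.mul_self_sqrt (hw t)]
      _ ≤ _ := this
      _ = _ := by
          congr 1
          · refine Finset.sum_congr rfl fun t _ => ?_
            rw [Real.sq_sqrt (hw t)]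
          · refine Finset.sum_congr rfl fun t _ => ?_
            rw [mul_pow, Real.sq_sqrt (hw t)]
  have h3 : ∑ t ∈ T, w t * F t ^ 2 = ∑ i ∈ S, ∑ j ∈ S, u i * u j * ∑ t ∈ (Nb i).filter (fun t => t ∈ Nb j), w t := by
    have e : ∀ t ∈ T, w t * F t ^ 2 = ∑ i ∈ S, ∑ j ∈ S, u i * u j * (if t ∈ Nb i ∧ t ∈ Nb j then w t else 0) := fun t _ => by
      rw [hF, sq, Finset.sum_mul_sum, Finset.mul_sum]
      refine Finset.sum_congr rfl fun i _ => ?_
      rw [Finset.mul_sum]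
      refine Finset.sum_congr rfl fun j _ => ?_
      by_cases h1 : t ∈ Nb i <;> by_cases h2 : t ∈ Nb j <;> simp [h1, h2]
      ring
    rw [Finset.sum_congr rfl e, Finset.sum_comm]
    refine Finset.sum_congr rfl fun i hi => ?_
    rw [Finset.sum_comm]
    refine Finset.sum_congr rfl fun j _ => ?_
    rw [← Finset.mul_sum, ← Finset.sum_filter]
    congr 1
    refine Finset.sum_congr ?_ fun _ _ => rfl
    ext t
    simp only [Finset.mem_filter]
    exact ⟨fun h => h.2, fun h => ⟨hT i hi h.1, h⟩⟩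
  rw [← h3]
  have h4 : 0 ≤ ∑ t ∈ T, w t * F t ^ 2 := Finset.sum_nonneg fun t _ => mul_nonneg (hw t) (sq_nonneg _)
  have h5 : 0 ≤ lam * Q * ∑ i ∈ S, u i := mul_nonneg (by positivity) (Finset.sum_nonneg hu)
  have h6 : (lam * Q * ∑ i ∈ S, u i) ^ 2 ≤ Q * ∑ t ∈ T, w t * F t ^ 2 :=
    (pow_le_pow_left₀ h5 h1 2).trans (h2.trans (mul_le_mul_of_nonneg_right hQ h4))
  have h7 : Q * (lam ^ 2 * Q * (∑ i ∈ S, u i) ^ 2) ≤ Q * ∑ t ∈ T, w t * F t ^ 2 := by
    calc Q * (lam ^ 2 * Q * (∑ i ∈ S, u i) ^ 2) = (lam * Q * ∑ i ∈ S, u i) ^ 2 := by ring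
      _ ≤ _ := h6
  exact le_of_mul_le_mul_left h7 hQ0

open Classical in
/-- a pair of tubes with a large angle and many common neighbours -/
theorem exists_pair {T : Finset ι} {w : ι → ℝ} {v : ι → Fin 2 → ℝ} {Q lam φ σ U : ℝ} (S : Finset ι) (Nb : ι → Finset ι)
    (hw : ∀ i, 0 ≤ w i) (hQ0 : 0 < Q) (hQ : ∑ i ∈ T, w i ≤ Q) (hlam : 0 < lam)
    (hT : ∀ i ∈ S, Nb i ⊆ T) (hNb : ∀ i ∈ S, lam * Q ≤ ∑ j ∈ Nb i, w j)
    (hU : 0 < U) (hSU : (1 / 2) * U ≤ ∑ i ∈ S, w i)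
    (hσ : ∀ i ∈ S, ∑ j ∈ S.filter (fun j => ‖v j - v i‖ ≤ φ), w j ≤ σ * U) (hσl : σ ≤ lam ^ 2 / 4) :
    ∃ i ∈ S, ∃ j ∈ S, φ < ‖v j - v i‖ ∧ lam ^ 2 / 2 * Q ≤ ∑ t ∈ (Nb i).filter (fun t => t ∈ Nb j), w t := by
  by_contra hcon
  push Not at hcon
  set W : ℝ := ∑ i ∈ S, w i with hW
  have hW0 : 0 < W := by linarith
  have h1 := pairs (T := T) (w := w) S w Nb hw (fun i _ => hw i) hQ0 hQ hlam.le hT hNb
  rw [← hW] at h1
  have h2 : ∀ i ∈ S, ∑ j ∈ S, w i * w j * ∑ t ∈ (Nb i).filter (fun t => t ∈ Nb j), w t ≤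
      w i * (σ * U * Q) + w i * (W * (lam ^ 2 / 2 * Q)) := fun i hi => by
    rw [← Finset.sum_filter_add_sum_filter_not S (fun j => ‖v j - v i‖ ≤ φ)]
    refine add_le_add ?_ ?_
    · calc ∑ j ∈ S.filter (fun j => ‖v j - v i‖ ≤ φ), w i * w j * ∑ t ∈ (Nb i).filter (fun t => t ∈ Nb j), w t
          ≤ ∑ j ∈ S.filter (fun j => ‖v j - v i‖ ≤ φ), w i * w j * Q := by
            refine Finset.sum_le_sum fun j _ => mul_le_mul_of_nonneg_left ?_ (mul_nonneg (hw i) (hw j))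
            exact (Finset.sum_le_sum_of_subset_of_nonneg ((Finset.filter_subset _ _).trans (hT i hi))
              fun t _ _ => hw t).trans hQ
        _ = w i * ((∑ j ∈ S.filter (fun j => ‖v j - v i‖ ≤ φ), w j) * Q) := by
            rw [Finset.sum_mul, Finset.mul_sum]
            exact Finset.sum_congr rfl fun j _ => by ring
        _ ≤ _ := mul_le_mul_of_nonneg_left (mul_le_mul_of_nonneg_right (hσ i hi) hQ0.le) (hw i)
    · calc ∑ j ∈ S.filter (fun j => ¬ ‖v j - v i‖ ≤ φ), w i * w j * ∑ t ∈ (Nb i).filter (fun t => t ∈ Nb j), w t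
          ≤ ∑ j ∈ S.filter (fun j => ¬ ‖v j - v i‖ ≤ φ), w i * w j * (lam ^ 2 / 2 * Q) := by
            refine Finset.sum_le_sum fun j hj => mul_le_mul_of_nonneg_left ?_ (mul_nonneg (hw i) (hw j))
            rw [Finset.mem_filter, not_le] at hj
            exact (hcon i hi j hj.1 hj.2).le
        _ ≤ ∑ j ∈ S, w i * w j * (lam ^ 2 / 2 * Q) :=
            Finset.sum_le_sum_of_subset_of_nonneg (Finset.filter_subset _ _) fun j _ _ =>
              mul_nonneg (mul_nonneg (hw i) (hw j)) (by positivity)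
        _ = w i * (W * (lam ^ 2 / 2 * Q)) := by
            rw [hW, Finset.sum_mul, Finset.mul_sum]
            exact Finset.sum_congr rfl fun j _ => by ring
  have hstrict : ∑ i ∈ S, ∑ j ∈ S, w i * w j * ∑ t ∈ (Nb i).filter (fun t => t ∈ Nb j), w t ≤
      W * (σ * U * Q) + W * (W * (lam ^ 2 / 2 * Q)) := by
    calc _ ≤ ∑ i ∈ S, (w i * (σ * U * Q) + w i * (W * (lam ^ 2 / 2 * Q))) := Finset.sum_le_sum h2
      _ = _ := by rw [Finset.sum_add_distrib, ← Finset.sum_mul, ← Finset.sum_mul, ← hW]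
  -- `σ U ≤ (lam² / 4) (2 W)`: equality must be excluded, so use a strict version
  have hlt : σ * U ≤ lam ^ 2 / 4 * (2 * W) := mul_le_mul hσl (by linarith) hU.le (by positivity)
  have h3 : lam ^ 2 * Q * W ^ 2 ≤ W * (lam ^ 2 / 2 * W * Q) + W * (W * (lam ^ 2 / 2 * Q)) := by
    refine (h1.trans hstrict).trans (add_le_add ?_ le_rfl)
    refine mul_le_mul_of_nonneg_left (mul_le_mul_of_nonneg_right ?_ hQ0.le) hW0.le
    linarith
  -- equality everywhere; some pair is far (otherwise the sum over near pairs is everything)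
  have h4 : ∃ i ∈ S, ∃ j ∈ S, φ < ‖v j - v i‖ ∧ 0 < w i ∧ 0 < w j := by
    by_contra hc
    push Not at hc
    obtain ⟨i, hi, hwi⟩ : ∃ i ∈ S, 0 < w i := by
      by_contra hc2
      push Not at hc2
      have : W ≤ 0 := Finset.sum_nonpos hc2
      linarith
    have h5 : W ≤ σ * U := by
      refine le_trans ?_ (hσ i hi)
      rw [hW, ← Finset.sum_filter_add_sum_filter_not S (fun j => ‖v j - v i‖ ≤ φ)]
      have : ∑ j ∈ S.filter (fun j => ¬ ‖v j - v i‖ ≤ φ), w j ≤ 0 := Finset.sum_nonpos fun j hj => by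
        rw [Finset.mem_filter, not_le] at hj
        exact hc i hi j hj.1 hj.2 hwi
      linarith
    have hl1 : lam ≤ 1 := by
      have h6 := (hNb i hi).trans ((Finset.sum_le_sum_of_subset_of_nonneg (hT i hi) fun t _ _ => hw t).trans hQ)
      exact le_of_mul_le_mul_right (by linarith) hQ0
    have : lam ^ 2 ≤ 1 := pow_le_one₀ hlam.le hl1
    nlinarith
  obtain ⟨i, hi, j, hj, hij, hwi, hwj⟩ := h4
  have h6 : ∑ j ∈ S, w i * w j * ∑ t ∈ (Nb i).filter (fun t => t ∈ Nb j), w t <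
      w i * (σ * U * Q) + w i * (W * (lam ^ 2 / 2 * Q)) := by
    rw [← Finset.sum_filter_add_sum_filter_not S (fun j => ‖v j - v i‖ ≤ φ)]
    refine add_lt_add_of_le_of_lt ?_ ?_
    · calc ∑ j ∈ S.filter (fun j => ‖v j - v i‖ ≤ φ), w i * w j * ∑ t ∈ (Nb i).filter (fun t => t ∈ Nb j), w t
          ≤ ∑ j ∈ S.filter (fun j => ‖v j - v i‖ ≤ φ), w i * w j * Q := by
            refine Finset.sum_le_sum fun j _ => mul_le_mul_of_nonneg_left ?_ (mul_nonneg (hw i) (hw j))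
            exact (Finset.sum_le_sum_of_subset_of_nonneg ((Finset.filter_subset _ _).trans (hT i hi))
              fun t _ _ => hw t).trans hQ
        _ = w i * ((∑ j ∈ S.filter (fun j => ‖v j - v i‖ ≤ φ), w j) * Q) := by
            rw [Finset.sum_mul, Finset.mul_sum]
            exact Finset.sum_congr rfl fun j _ => by ring
        _ ≤ _ := mul_le_mul_of_nonneg_left (mul_le_mul_of_nonneg_right (hσ i hi) hQ0.le) (hw i)
    · calc ∑ j ∈ S.filter (fun j => ¬ ‖v j - v i‖ ≤ φ), w i * w j * ∑ t ∈ (Nb i).filter (fun t => t ∈ Nb j), w t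
          < ∑ j ∈ S.filter (fun j => ¬ ‖v j - v i‖ ≤ φ), w i * w j * (lam ^ 2 / 2 * Q) := by
            refine Finset.sum_lt_sum (fun j hj => mul_le_mul_of_nonneg_left ?_ (mul_nonneg (hw i) (hw j))) ?_
            · rw [Finset.mem_filter, not_le] at hj
              exact (hcon i hi j hj.1 hj.2).le
            · exact ⟨j, Finset.mem_filter.2 ⟨hj, not_le.2 hij⟩,
                mul_lt_mul_of_pos_left (hcon i hi j hj hij) (mul_pos hwi hwj)⟩
        _ ≤ ∑ j ∈ S, w i * w j * (lam ^ 2 / 2 * Q) :=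
            Finset.sum_le_sum_of_subset_of_nonneg (Finset.filter_subset _ _) fun j _ _ =>
              mul_nonneg (mul_nonneg (hw i) (hw j)) (by positivity)
        _ = w i * (W * (lam ^ 2 / 2 * Q)) := by
            rw [hW, Finset.sum_mul, Finset.mul_sum]
            exact Finset.sum_congr rfl fun j _ => by ring
  have h7 : ∑ i ∈ S, ∑ j ∈ S, w i * w j * ∑ t ∈ (Nb i).filter (fun t => t ∈ Nb j), w t <
      W * (σ * U * Q) + W * (W * (lam ^ 2 / 2 * Q)) := by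
    calc _ < ∑ i ∈ S, (w i * (σ * U * Q) + w i * (W * (lam ^ 2 / 2 * Q))) :=
          Finset.sum_lt_sum h2 ⟨i, hi, h6⟩
      _ = _ := by rw [Finset.sum_add_distrib, ← Finset.sum_mul, ← Finset.sum_mul, ← hW]
  have h8 : W * (σ * U * Q) ≤ W * (lam ^ 2 / 2 * W * Q) := by
    refine mul_le_mul_of_nonneg_left (mul_le_mul_of_nonneg_right ?_ hQ0.le) hW0.le
    linarith
  nlinarith

end Inc

/-! ### the plate of two tubes -/

theorem fn_sub (θ : ℝ) (a b : Fin 2 → ℝ) : fn θ (a - b) = fn θ a - fn θ b := by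
  unfold fn
  simp only [Pi.sub_apply]
  ring

theorem exists_fn_zero (d : Fin 2 → ℝ) : ∃ θ, fn θ d = 0 := by
  refine ⟨Complex.arg ⟨d 0, d 1⟩, ?_⟩
  unfold fn
  by_cases h : (⟨d 0, d 1⟩ : ℂ) = 0
  · have h0 : d 0 = 0 := congrArg Complex.re h
    have h1 : d 1 = 0 := congrArg Complex.im h
    rw [h0, h1]
    ring
  · have hn : ‖(⟨d 0, d 1⟩ : ℂ)‖ ≠ 0 := norm_ne_zero_iff.2 h
    rw [Complex.sin_arg, Complex.cos_arg h]
    field_simp
    ring

theorem abs_fn_le (θ : ℝ) {E : Fin 2 → ℝ} {a : ℝ} (h : ∀ k, |E k| ≤ a) : |fn θ E| ≤ 2 * a := by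
  unfold fn
  have h0 := h 0
  have h1 := h 1
  have a0 : 0 ≤ a := (abs_nonneg _).trans h0
  calc |-Real.sin θ * E 0 + Real.cos θ * E 1| ≤ |-Real.sin θ * E 0| + |Real.cos θ * E 1| := abs_add_le _ _
    _ ≤ 1 * a + 1 * a := by
        rw [abs_mul, abs_mul, abs_neg]
        exact add_le_add (mul_le_mul (Real.abs_sin_le_one θ) h0 (abs_nonneg _) zero_le_one)
          (mul_le_mul (Real.abs_cos_le_one θ) h1 (abs_nonneg _) zero_le_one)
    _ = 2 * a := by ring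

/-- `t` meets the tube `i` in `P1` and the tube `j` in `P2`, far from the common ball `p` of `i` and `j` -/
theorem plate {C0 N r φ : ℝ} {oi vi oj vj ot vt : Fin 2 → ℝ} {p P1 P2 : ℤ × (Fin 2 → ℤ)} (_hC : 1 ≤ C0) (hN : 1 ≤ N)
    (hip : Thr C0 oi vi p) (hjp : Thr C0 oj vj p) (hi1 : Thr C0 oi vi P1) (hj2 : Thr C0 oj vj P2)
    (ht1 : Thr C0 ot vt P1) (ht2 : Thr C0 ot vt P2) (hφ : φ < ‖vj - vi‖) (hφ0 : 0 < φ)
    (hr : r < |(P2.1 : ℝ) - p.1|) (hr0 : 0 < r) (hbig : 12 * C0 ≤ r * φ)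
    (hvi : ∀ k, |vi k| ≤ 1) (hvt : ∀ k, |vt k| ≤ 1) (hP1 : 0 ≤ P1.1) (hP1' : (P1.1 : ℝ) ≤ N)
    {θ : ℝ} (hθ : fn θ (vj - vi) = 0) :
    |fn θ vt - fn θ vi| ≤ 48 * C0 / (r * φ) ∧ |fn θ ot - fn θ oi| ≤ 48 * C0 / (r * φ) * N + 4 * C0 := by
  set a : ℝ := (P1.1 : ℝ) with ha
  set b : ℝ := (P2.1 : ℝ) with hb
  set c : ℝ := (p.1 : ℝ) with hc
  -- the error vector
  set E : Fin 2 → ℝ := fun k => (b - a) * (vt k - vi k) - (b - c) * (vj k - vi k) with hE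
  have hEk : ∀ k, |E k| ≤ 6 * C0 := fun k => by
    have e : E k = -(((P2.2 k : ℝ) - ot k - b * vt k) - ((P2.2 k : ℝ) - oj k - b * vj k)) +
        (((P1.2 k : ℝ) - ot k - a * vt k) - ((P1.2 k : ℝ) - oi k - a * vi k)) +
        (((p.2 k : ℝ) - oi k - c * vi k) - ((p.2 k : ℝ) - oj k - c * vj k)) := by
      rw [hE]
      ring
    rw [e]
    have h1 := abs_le.1 (ht2 k)
    have h2 := abs_le.1 (hj2 k)
    have h3 := abs_le.1 (ht1 k)
    have h4 := abs_le.1 (hi1 k)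
    have h5 := abs_le.1 (hip k)
    have h6 := abs_le.1 (hjp k)
    rw [abs_le]
    constructor <;> linarith [h1.1, h1.2, h2.1, h2.2, h3.1, h3.2, h4.1, h4.2, h5.1, h5.2, h6.1, h6.2]
  -- the two times are different
  have hab : r * φ / 4 ≤ |b - a| := by
    obtain ⟨k, hk⟩ : ∃ k, φ < |vj k - vi k| := by
      by_contra hcon
      push Not at hcon
      have : ‖vj - vi‖ ≤ φ := (pi_norm_le_iff_of_nonneg hφ0.le).2 fun k => by
        rw [Pi.sub_apply, Real.norm_eq_abs]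
        exact hcon k
      linarith
    have h1 : |b - c| * |vj k - vi k| ≤ |b - a| * 2 + 6 * C0 := by
      have e : (b - c) * (vj k - vi k) = (b - a) * (vt k - vi k) - E k := by rw [hE]; ring
      rw [← abs_mul, e]
      refine (abs_sub _ _).trans (add_le_add ?_ (hEk k))
      rw [abs_mul]
      refine mul_le_mul_of_nonneg_left ?_ (abs_nonneg _)
      exact (abs_sub _ _).trans (by linarith [hvt k, hvi k])
    have h2 : r * φ ≤ |b - c| * |vj k - vi k| := mul_le_mul hr.le hk.le hφ0.le (abs_nonneg _)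
    linarith
  have hrφ : 0 < r * φ := mul_pos hr0 hφ0
  have h1 : |fn θ vt - fn θ vi| ≤ 48 * C0 / (r * φ) := by
    have e : (b - a) * (fn θ vt - fn θ vi) = fn θ E := by
      have e1 : fn θ E = (b - a) * (fn θ vt - fn θ vi) - (b - c) * fn θ (vj - vi) := by
        rw [hE]
        unfold fn
        simp only [Pi.sub_apply]
        ring
      rw [e1, hθ]
      ring
    have h2 : |b - a| * |fn θ vt - fn θ vi| ≤ 12 * C0 := by
      rw [← abs_mul, e]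
      exact (abs_fn_le θ hEk).trans (by linarith)
    rw [le_div_iff₀ hrφ]
    have h3 := mul_le_mul_of_nonneg_right hab (abs_nonneg (fn θ vt - fn θ vi))
    nlinarith
  refine ⟨h1, ?_⟩
  set E' : Fin 2 → ℝ := fun k => (ot k - oi k) + a * (vt k - vi k) with hE'
  have hE'k : ∀ k, |E' k| ≤ 2 * C0 := fun k => by
    have e : E' k = ((P1.2 k : ℝ) - oi k - a * vi k) - ((P1.2 k : ℝ) - ot k - a * vt k) := by
      rw [hE']
      ring
    rw [e]
    exact (abs_sub _ _).trans (by linarith [hi1 k, ht1 k])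
  have e : fn θ ot - fn θ oi = fn θ E' - a * (fn θ vt - fn θ vi) := by
    rw [hE']
    unfold fn
    ring
  rw [e]
  have ha0 : 0 ≤ a := by rw [ha]; exact_mod_cast hP1
  refine (abs_sub _ _).trans ?_
  rw [abs_mul, abs_of_nonneg ha0]
  have h2 := abs_fn_le θ hE'k
  have h3 : a * |fn θ vt - fn θ vi| ≤ N * (48 * C0 / (r * φ)) :=
    mul_le_mul hP1' h1 (abs_nonneg _) (by linarith)
  linarith

/-! ### the theorem -/

namespace Inc

open Classical in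
/-- **CS** a positive proportion of the tubes lies in one plate -/
theorem cs {κ φ1 φ0 σ r lam : ℝ} (hκ : 0 < κ) (hφ1 : 0 < φ1) (hφ1' : φ1 ≤ 1) (hφ0 : 0 < φ0) (hr : 0 < r)
    (hY : 2 * κ * I.N * I.Q < I.Y.card * I.Th)
    (hr1 : (2 * r + 1) * (2 * I.C0 + 1) ^ 2 ≤ κ * I.N / 2) (hr2 : 12 * I.C0 ≤ r * φ0)
    (hlam : lam = φ1 * κ * I.N * I.Th / (4 * ((2 * I.C0 + 1) ^ 2 * (4 * I.C0 + 1)) * I.Q))
    (hs1 : ∀ P ∈ I.Y, ∀ u, ∑ j ∈ (I.G P).filter (fun j => ‖I.v j - u‖ ≤ φ1), I.w j ≤ (1 / 2) * ∑ j ∈ I.G P, I.w j)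
    (hs0 : ∀ P ∈ I.Y, ∀ u, ∑ j ∈ (I.G P).filter (fun j => ‖I.v j - u‖ ≤ φ0), I.w j ≤ σ * ∑ j ∈ I.G P, I.w j)
    (hσ : σ ≤ lam ^ 2 / 4) :
    lam ≤ 1 ∧ ∃ θ u b, lam ^ 2 / 2 * I.Q ≤ ∑ t ∈ I.T.filter (fun t => |fn θ (I.v t) - u| ≤ 48 * I.C0 / (r * φ0) ∧
      |fn θ (I.o t) - b| ≤ 48 * I.C0 / (r * φ0) * I.N + 4 * I.C0), I.w t := by
  have hC := I.C1
  have hN := I.N1
  have hTh := I.Th0
  have hQ := I.Q0
  have hlam0 : 0 < lam := by
    rw [hlam]
    positivity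
  obtain ⟨p, hp, hpw⟩ := I.exists_typ hκ hY
  set S : Finset ι := (I.G p).filter (fun i => i ∈ I.Ty κ) with hS
  set U : ℝ := ∑ i ∈ I.G p, I.w i with hU
  have hU0 : 0 < U := hTh.trans_le (I.ThG p hp)
  set Nb : ι → Finset ι := fun i => I.Nb φ1 (I.Fr r p i) i with hNbd
  have hT : ∀ i ∈ S, Nb i ⊆ I.T := fun i _ => Finset.filter_subset _ _
  have hFr : ∀ i, I.Fr r p i ⊆ I.Yt i := fun i => Finset.filter_subset _ _
  have hNb : ∀ i ∈ S, lam * I.Q ≤ ∑ j ∈ Nb i, I.w j := fun i hi => by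
    rw [hS, Finset.mem_filter] at hi
    have h1 := I.weight_Nb (κ := κ) (hFr i) hφ1 hφ1' (I.card_Fr p hi.2 hr.le hr1) (fun P hP =>
      hs1 P (Finset.mem_filter.1 (hFr i hP)).1 _)
    refine le_trans (le_of_eq ?_) h1
    rw [hlam]
    field_simp
  have hσ' : ∀ i ∈ S, ∑ j ∈ S.filter (fun j => ‖I.v j - I.v i‖ ≤ φ0), I.w j ≤ σ * U := fun i _ => by
    refine le_trans (Finset.sum_le_sum_of_subset_of_nonneg ?_ fun j _ _ => I.w0 j) (hs0 p hp (I.v i))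
    exact Finset.filter_subset_filter _ (Finset.filter_subset _ _)
  obtain ⟨i, hi, j, hj, hij, hw⟩ := exists_pair (T := I.T) (v := I.v) S Nb I.w0 hQ I.wQ hlam0 hT hNb hU0 hpw hσ' hσ
  have hl1 : lam ≤ 1 := by
    have h6 := (hNb i hi).trans ((Finset.sum_le_sum_of_subset_of_nonneg (hT i hi) fun t _ _ => I.w0 t).trans I.wQ)
    exact le_of_mul_le_mul_right (by linarith) hQ
  refine ⟨hl1, ?_⟩
  obtain ⟨θ, hθ⟩ := exists_fn_zero (I.v j - I.v i)
  refine ⟨θ, fn θ (I.v i), fn θ (I.o i), hw.trans ?_⟩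
  refine Finset.sum_le_sum_of_subset_of_nonneg (fun t ht => ?_) fun t _ _ => I.w0 t
  rw [Finset.mem_filter] at ht
  obtain ⟨htT, P1, hP1, ht1, _⟩ := Finset.mem_filter.1 ht.1
  obtain ⟨_, P2, hP2, ht2, _⟩ := Finset.mem_filter.1 ht.2
  have a1 := Finset.mem_filter.1 hP1
  have a2 := Finset.mem_filter.1 hP2
  have b1 := Finset.mem_filter.1 a1.1
  have b2 := Finset.mem_filter.1 a2.1
  rw [hS, Finset.mem_filter] at hi hj
  have hiT : i ∈ I.T := I.GT p hp hi.1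
  rw [Finset.mem_filter]
  exact ⟨htT, plate hC hN (I.thr p hp i hi.1) (I.thr p hp j hj.1) (I.thr P1 b1.1 i b1.2) (I.thr P2 b2.1 j b2.2)
    (I.thr P1 b1.1 t ht1) (I.thr P2 b2.1 t ht2) hij hφ0 a2.2 hr hr2 (I.v1 i hiT) (I.v1 t htT) (I.t0 P1 b1.1)
    (I.tN P1 b1.1) hθ⟩

end Inc

end Vale.Agent.P076.H322
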