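import Vale.Agent.P076.H322.ST9

/-! # P076 / H322 : the block NS.ST : `StKPG → StSC → StNSd` -/

set_option autoImplicit false

open MeasureTheory Complex Set Vale.Agent.P122.C2 Vale.Agent.P122.AN Vale.Agent.P076.NS Vale.Agent.P076.H879
open scoped ENNReal NNReal FourierTransform

namespace Vale.Agent.P076.H322

/-- a nonpositive exponent -/
theorem rp_le_one {x : ℝ} (n : ℕ) (hx : x ≤ 0) : (2:ℝ) ^ (x * n) ≤ 1 :=
  Real.rpow_le_one_of_one_le_of_nonpos (by norm_num) (mul_nonpos_of_nonpos_of_nonneg hx (Nat.cast_nonneg _))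

theorem pow_rp (n k : ℕ) : ((2:ℝ) ^ n) ^ k = 2 ^ ((k:ℝ) * n) := by
  rw [← pow_mul, ← Real.rpow_natCast]
  congr 1
  push_cast
  ring

/-- the estimate without gain -/
theorem triv_bound {K n M : ℕ} {C0 β Q c1 SK : ℝ} {j0 : ℕ} {g : Z2 → E3 → ℂ} {Y : Finset (Fin 3 → ℤ)} (hC0 : 1 ≤ C0)
    (pK : 0 ≤ SK) (hSK : Claim c1 C0 M K n j0 27 SK) (par : Par C0 K n g) (dim : Dim2 K n Y C0) (hβ : 0 < β) (hQ : 0 ≤ Q)
    (amp : ∀ B ∈ Y, ENNReal.ofReal (β ^ 6) ≤ b6 M n B (pie K n g 0 0)) (msQ : ms K n g ≤ ENNReal.ofReal Q) :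
    β ^ 2 * Y.card ≤ SK * C0 ^ (2 / 3 : ℝ) * sL K n * Q := by
  classical
  have hy : Hyp C0 M K n j0 27 g Y (fun _ => desc K n 0 0) C0 β 1 :=
    { par := par
      γ0 := by linarith
      dim := dim
      β0 := hβ
      b0 := one_pos
      b1 := le_rfl
      lab := fun _ p => by
        refine (Finset.card_le_card (t := {desc K n 0 0}) ?_).trans (by simp)
        intro G hG
        obtain ⟨B, _, rfl⟩ := Finset.mem_image.1 hG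
        simp
      sub := fun _ _ => Finset.Subset.refl _
      uni := fun _ _ θ _ θ' h _ => h
      amp := amp
      enr := Or.inl rfl }
  have h1 := kpg_real pK hSK hy hQ msQ
  rwa [Real.one_rpow, mul_one] at h1

/-- the numerical choices -/
theorem num_of {K n M j1 j0 J A4 a1 a0 j2 k1 l C1 : ℕ} {c1 C0 S1 S0 SK Cb C1a C1b CS1 CS0 CK : ℝ}
    (hC0 : 1 ≤ C0) (h1a : C1a ≤ C1) (h1b : C1b ≤ C1) (hCS1 : 0 ≤ CS1) (hCS0 : 0 ≤ CS0) (hCK : 0 ≤ CK)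
    (hj2 : (C1 + J : ℝ) ≤ c1 * j2) (eA4 : A4 = J + 3) (ea1 : a1 = j2 + 1) (ek1 : k1 = j2 + J + 1)
    (ej1 : j1 = 3 * (2 * (A4 + a1) + C1 + J)) (el : l = j1 + 2 * k1 + 5) (ea0 : a0 = 2 * l + j2 + 1)
    (ej0 : j0 = 3 * (2 * (A4 + a0) + C1 + J)) (hK1 : 5 * j0 + 1 ≤ K) (hK2 : k1 + j0 + 5 ≤ K) (hM : K + J + j2 ≤ M)
    (eS1 : S1 = CS1 * 2 ^ ((C1b - j1 / 3) * n)) (eS0 : S0 = CS0 * 2 ^ ((C1b - j0 / 3) * n)) (eSK : SK = CK * 2 ^ (C1a * n))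
    (eCb : Cb = 72 * CS1 * C0 ^ (2 / 3 : ℝ) + 72 * CS0 * C0 ^ (2 / 3 : ℝ) + 72 * CK * C0 ^ (2 / 3 : ℝ) + 1440 * C0 ^ 3 * Cw +
      18 * 4 ^ M * 4 ^ M * CY C0 + 1152 * C0 ^ 3 * Cw * 4 ^ M + 810 * 4 ^ M * Cw * CY C0 + 1)
    (hn : 1152 * 4 ^ M + 340 * C0 ≤ (2:ℝ) ^ n) : Num K n M j1 j0 J A4 a1 a0 j2 k1 l c1 C0 S1 S0 SK Cb := by
  have hCw := Cw_one
  have hCY : 0 < CY C0 := by unfold CY; positivity
  have hM4 : (1:ℝ) ≤ 4 ^ M := one_le_pow₀ (by norm_num)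
  have hg : 0 < C0 ^ (2 / 3 : ℝ) := by positivity
  have hD0 : (0:ℝ) < 2 ^ n := by positivity
  have hD1 : (1:ℝ) ≤ 2 ^ n := one_le_pow₀ (by norm_num)
  have t1 : 0 ≤ 72 * CS1 * C0 ^ (2 / 3 : ℝ) := by positivity
  have t2 : 0 ≤ 72 * CS0 * C0 ^ (2 / 3 : ℝ) := by positivity
  have t3 : 0 ≤ 72 * CK * C0 ^ (2 / 3 : ℝ) := by positivity
  have t4 : 0 ≤ 1440 * C0 ^ 3 * Cw := by positivity
  have t5 : 0 ≤ 18 * 4 ^ M * 4 ^ M * CY C0 := by positivity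
  have t6 : 0 ≤ 1152 * C0 ^ 3 * Cw * 4 ^ M := by positivity
  have t7 : 0 ≤ 810 * 4 ^ M * Cw * CY C0 := by positivity
  have hL : (2:ℝ) ^ (K * n) = (2 ^ n) ^ K := by rw [← pow_mul, mul_comm]
  have sc : ∀ (CS : ℝ) (j a : ℕ), 0 ≤ CS → j = 3 * (2 * (A4 + a) + C1 + J) →
      72 * (CS * 2 ^ ((C1b - j / 3) * n)) * ((2 ^ n) ^ (A4 + a)) ^ 2 * C0 ^ (2 / 3 : ℝ) * (2 ^ n) ^ J ≤
        72 * CS * C0 ^ (2 / 3 : ℝ) := by
    intro CS j a hCS ej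
    have e1 : (2:ℝ) ^ ((C1b - j / 3) * n) * ((2 ^ n) ^ (A4 + a)) ^ 2 * (2 ^ n) ^ J =
        2 ^ ((C1b - j / 3 + 2 * (A4 + a) + J) * n) := by
      rw [← pow_mul, pow_rp, pow_rp, ← Real.rpow_add (by norm_num), ← Real.rpow_add (by norm_num)]
      congr 1
      push_cast
      ring
    have e2 : (C1b - j / 3 + 2 * (A4 + a) + J : ℝ) ≤ 0 := by
      rw [ej]
      push_cast
      linarith
    calc 72 * (CS * 2 ^ ((C1b - j / 3) * n)) * ((2 ^ n) ^ (A4 + a)) ^ 2 * C0 ^ (2 / 3 : ℝ) * (2 ^ n) ^ J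
        = 72 * CS * C0 ^ (2 / 3 : ℝ) * (2 ^ ((C1b - j / 3) * n) * ((2 ^ n) ^ (A4 + a)) ^ 2 * (2 ^ n) ^ J) := by ring
      _ ≤ 72 * CS * C0 ^ (2 / 3 : ℝ) * 1 := by
          rw [e1]
          exact mul_le_mul_of_nonneg_left (rp_le_one n e2) (by positivity)
      _ = _ := mul_one _
  refine ⟨by omega, hK1, by rw [eS1]; positivity, by rw [eS0]; positivity, by rw [eSK]; positivity,
    by rw [eCb]; positivity, by linarith, ?_, ?_, ?_, ?_, ?_, ?_, ?_, ?_, ?_, ?_, ?_⟩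
  · rw [eS1, eCb]
    linarith [sc CS1 j1 a1 hCS1 ej1]
  · rw [eS0, eCb]
    linarith [sc CS0 j0 a0 hCS0 ej0]
  · rw [eSK, eCb]
    have e0 : (((2:ℝ) ^ n) ^ j2)⁻¹ ^ c1 = 2 ^ (-(c1 * j2) * n) := by
      rw [pow_rp, ← Real.rpow_neg (by norm_num), ← Real.rpow_mul (by norm_num)]
      congr 1
      ring
    have e1 : (2:ℝ) ^ (C1a * n) * (((2:ℝ) ^ n) ^ j2)⁻¹ ^ c1 * (2 ^ n) ^ J = 2 ^ ((C1a - c1 * j2 + J) * n) := by
      rw [e0, pow_rp, ← Real.rpow_add (by norm_num), ← Real.rpow_add (by norm_num)]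
      congr 1
      ring
    have h1 : 72 * (CK * 2 ^ (C1a * n)) * (((2:ℝ) ^ n) ^ j2)⁻¹ ^ c1 * C0 ^ (2 / 3 : ℝ) * (2 ^ n) ^ J ≤
        72 * CK * C0 ^ (2 / 3 : ℝ) := by
      calc 72 * (CK * 2 ^ (C1a * n)) * (((2:ℝ) ^ n) ^ j2)⁻¹ ^ c1 * C0 ^ (2 / 3 : ℝ) * (2 ^ n) ^ J
          = 72 * CK * C0 ^ (2 / 3 : ℝ) * (2 ^ (C1a * n) * (((2:ℝ) ^ n) ^ j2)⁻¹ ^ c1 * (2 ^ n) ^ J) := by ring
        _ ≤ 72 * CK * C0 ^ (2 / 3 : ℝ) * 1 := by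
            rw [e1]
            exact mul_le_mul_of_nonneg_left (rp_le_one n (by linarith)) (by positivity)
        _ = _ := mul_one _
    linarith
  · rw [eCb, eA4, pow_add]
    have : 1440 * C0 ^ 3 * Cw * (2 ^ n) ^ 3 * (2 ^ n) ^ J = (1440 * C0 ^ 3 * Cw) * ((2 ^ n) ^ J * (2 ^ n) ^ 3) := by ring
    rw [this]
    exact mul_le_mul_of_nonneg_right (by linarith) (by positivity)
  · have h1 : 18 * 4 ^ M * 4 ^ M * CY C0 * (2 ^ n) ^ j2 * (2 ^ n) ^ J * 2 ^ (K * n) =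
        (18 * 4 ^ M * 4 ^ M * CY C0) * (2 ^ n) ^ (j2 + J + K) := by
      rw [hL, pow_add, pow_add]; ring
    rw [h1, eCb]
    exact mul_le_mul (by linarith) (pow_le_pow_right₀ hD1 (by omega)) (by positivity) (by positivity)
  · have h1 : 1152 * C0 ^ 3 * Cw * 4 ^ M * 2 ^ n * (2 ^ n) ^ j2 * (2 ^ n) ^ J =
        (1152 * C0 ^ 3 * Cw * 4 ^ M) * (2 ^ n) ^ k1 := by
      rw [ek1, pow_add, pow_add]; ring
    rw [h1, eCb]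
    exact mul_le_mul_of_nonneg_right (by linarith) (by positivity)
  · rw [ea1, pow_succ, mul_comm ((2 ^ n) ^ j2 : ℝ)]
    exact mul_le_mul_of_nonneg_right (by linarith) (by positivity)
  · have h1 : ((2:ℝ) ^ n) ^ a0 = 2 ^ n * ((2 ^ n) ^ j2 * ((2 ^ n) ^ l) ^ 2) := by
      rw [ea0, pow_succ, pow_add, mul_comm 2 l, pow_mul]; ring
    rw [h1, mul_assoc (1152 * 4 ^ M)]
    exact mul_le_mul_of_nonneg_right (by linarith) (by positivity)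
  · rw [eCb]
    exact mul_le_mul (by linarith) (pow_le_pow_right₀ hD1 (by omega)) (by positivity) (by positivity)
  · rw [hL]
    calc 9 * ((2:ℝ) ^ n) ^ (k1 + 2) ≤ 2 ^ n * (2 ^ n) ^ (k1 + 2) := mul_le_mul_of_nonneg_right (by linarith) (by positivity)
      _ = (2 ^ n) ^ (k1 + 3) := by ring
      _ ≤ (2 ^ n) ^ K := pow_le_pow_right₀ hD1 (by omega)
  · rw [hL]
    calc 12 * ((2:ℝ) ^ n) ^ (k1 + j0 + 4) ≤ 2 ^ n * (2 ^ n) ^ (k1 + j0 + 4) :=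
          mul_le_mul_of_nonneg_right (by linarith) (by positivity)
      _ = (2 ^ n) ^ (k1 + j0 + 5) := by ring
      _ ≤ (2 ^ n) ^ K := pow_le_pow_right₀ hD1 (by omega)

/-- powers of `D` against `L ^ c` -/
theorem q_pf {K n k1 j0 l : ℕ} {c C0 : ℝ} (hC0 : 1 ≤ C0) (hD : 1152 + 340 * C0 ≤ (2:ℝ) ^ n)
    (hcK : (k1 + j0 + 2 * l + 6 : ℝ) ≤ c * K) :
    48 * (2 ^ n) ^ (k1 + j0 + 4) * (4 * C0 + 3 * C0 * 2 ^ n) + 4 * 2 ^ n ≤ (2:ℝ) ^ (c * (K * n)) ∧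
      6 * ((2 ^ n) ^ l) ^ 2 < (2:ℝ) ^ (c * (K * n)) := by
  have hD1 : (1:ℝ) ≤ 2 ^ n := by linarith
  have hpw : ∀ k : ℕ, (k : ℝ) ≤ k1 + j0 + 2 * l + 6 → ((2:ℝ) ^ n) ^ k ≤ 2 ^ (c * (K * n)) := fun k hk => by
    rw [pow_rp]
    refine Real.rpow_le_rpow_of_exponent_le (by norm_num) ?_
    have h1 : (k : ℝ) * n ≤ (c * K) * n := mul_le_mul_of_nonneg_right (hk.trans hcK) (Nat.cast_nonneg _)
    linarith
  constructor
  · refine le_trans ?_ (hpw (k1 + j0 + 6) (by push_cast; linarith [Nat.cast_nonneg (α := ℝ) l]))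
    have h1 : (2:ℝ) ^ n ≤ (2 ^ n) ^ (k1 + j0 + 5) := le_self_pow₀ hD1 (by omega)
    have h2 : 4 * C0 + 3 * C0 * 2 ^ n ≤ 7 * C0 * 2 ^ n := by nlinarith
    calc 48 * (2 ^ n) ^ (k1 + j0 + 4) * (4 * C0 + 3 * C0 * 2 ^ n) + 4 * 2 ^ n
        ≤ 48 * (2 ^ n) ^ (k1 + j0 + 4) * (7 * C0 * 2 ^ n) + 4 * C0 * (2 ^ n) ^ (k1 + j0 + 5) := by
          refine add_le_add (mul_le_mul_of_nonneg_left h2 (by positivity)) ?_
          refine mul_le_mul (by linarith) h1 (by positivity) (by positivity)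
      _ = (340 * C0) * (2 ^ n) ^ (k1 + j0 + 5) := by ring
      _ ≤ 2 ^ n * (2 ^ n) ^ (k1 + j0 + 5) := mul_le_mul_of_nonneg_right (by linarith) (by positivity)
      _ = (2 ^ n) ^ (k1 + j0 + 6) := by ring
  · refine lt_of_lt_of_le ?_ (hpw (2 * l + 1) (by
      push_cast
      linarith [Nat.cast_nonneg (α := ℝ) k1, Nat.cast_nonneg (α := ℝ) j0]))
    have e : ((2:ℝ) ^ n) ^ (2 * l + 1) = 2 ^ n * ((2 ^ n) ^ l) ^ 2 := by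
      rw [pow_succ, mul_comm 2 l, pow_mul]; ring
    rw [e]
    exact mul_lt_mul_of_pos_right (by linarith) (by positivity)

/-- large `n`: final form -/
theorem fin_large {n J : ℕ} {x Cb s Q E J' : ℝ} (hs : 0 < s) (hQ : 0 < Q) (hE : 0 ≤ E) (hCb : 0 < Cb)
    (hJ : J' ≤ J) (h : (2 ^ n) ^ J * x ≤ Cb * (s * Q)) : x ≤ (Cb + E) * 2 ^ (-(J' * n)) * s * Q := by
  have hJn : (2:ℝ) ^ (-((J:ℝ) * n)) ≤ 2 ^ (-(J' * n)) := by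
    refine Real.rpow_le_rpow_of_exponent_le (by norm_num) ?_
    have := mul_le_mul_of_nonneg_right hJ (Nat.cast_nonneg (α := ℝ) n)
    linarith
  have h2 : x ≤ Cb * 2 ^ (-((J:ℝ) * n)) * s * Q := by
    have e : (2:ℝ) ^ (-((J:ℝ) * n)) = ((2 ^ n) ^ J)⁻¹ := by rw [pow_rp, Real.rpow_neg (by norm_num)]
    rw [e]
    have h3 : x ≤ ((2 ^ n) ^ J)⁻¹ * (Cb * (s * Q)) := by
      rw [← div_eq_inv_mul, le_div_iff₀ (by positivity)]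
      linarith
    refine h3.trans (le_of_eq ?_)
    ring
  refine h2.trans ?_
  have h4 : Cb * 2 ^ (-((J:ℝ) * n)) ≤ (Cb + E) * 2 ^ (-(J' * n)) :=
    mul_le_mul (by linarith) hJn (by positivity) (by positivity)
  gcongr

/-- small `n`: final form -/
theorem fin_small {n n0 J C1 : ℕ} {x Cb CK C1a G s Q J' : ℝ} (hn : n < n0) (hs : 0 < s) (hQ : 0 < Q) (hG : 0 < G) (hCK : 0 ≤ CK)
    (hCb : 0 < Cb) (hJ : J' ≤ J) (h1a : C1a ≤ C1) (h : x ≤ CK * 2 ^ (C1a * n) * G * s * Q) :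
    x ≤ (Cb + CK * G * 2 ^ ((C1 + J) * n0 : ℝ)) * 2 ^ (-(J' * n)) * s * Q := by
  have hJn : (2:ℝ) ^ (-((J:ℝ) * n)) ≤ 2 ^ (-(J' * n)) := by
    refine Real.rpow_le_rpow_of_exponent_le (by norm_num) ?_
    have := mul_le_mul_of_nonneg_right hJ (Nat.cast_nonneg (α := ℝ) n)
    linarith
  have h1 : (2:ℝ) ^ (C1a * n) ≤ 2 ^ ((C1 + J) * n0 : ℝ) * 2 ^ (-((J:ℝ) * n)) := by
    rw [← Real.rpow_add (by norm_num)]
    refine Real.rpow_le_rpow_of_exponent_le (by norm_num) ?_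
    have h3 : (n : ℝ) ≤ n0 := by exact_mod_cast hn.le
    have h4 : C1a * n ≤ C1 * n0 := by
      calc C1a * n ≤ C1 * n := mul_le_mul_of_nonneg_right h1a (Nat.cast_nonneg _)
        _ ≤ C1 * n0 := mul_le_mul_of_nonneg_left h3 (Nat.cast_nonneg _)
    have h5 : (J:ℝ) * n ≤ J * n0 := mul_le_mul_of_nonneg_left h3 (Nat.cast_nonneg _)
    linarith
  refine h.trans ?_
  have h4 : CK * 2 ^ (C1a * n) * G ≤ (Cb + CK * G * 2 ^ ((C1 + J) * n0 : ℝ)) * 2 ^ (-(J' * n)) := by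
    calc CK * 2 ^ (C1a * n) * G ≤ CK * (2 ^ ((C1 + J) * n0 : ℝ) * 2 ^ (-((J:ℝ) * n))) * G := by gcongr
      _ = (CK * G * 2 ^ ((C1 + J) * n0 : ℝ)) * 2 ^ (-((J:ℝ) * n)) := by ring
      _ ≤ _ := mul_le_mul (by linarith) hJn (by positivity) (by positivity)
  gcongr

/-- **the block NS.ST** -/
theorem st : StST := by
  rintro ⟨C1a, c1, hc1, hK⟩ ⟨C1b, hS⟩ c J' hc
  obtain ⟨C1, hC1⟩ := exists_nat_ge (max C1a C1b)
  obtain ⟨J, hJ⟩ := exists_nat_ge J'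
  obtain ⟨j2, hj2⟩ := exists_nat_ge ((C1 + J : ℝ) / c1)
  obtain ⟨A4, eA4⟩ : ∃ A4, A4 = J + 3 := ⟨_, rfl⟩
  obtain ⟨a1, ea1⟩ : ∃ a1, a1 = j2 + 1 := ⟨_, rfl⟩
  obtain ⟨k1, ek1⟩ : ∃ k1, k1 = j2 + J + 1 := ⟨_, rfl⟩
  obtain ⟨j1, ej1⟩ : ∃ j1, j1 = 3 * (2 * (A4 + a1) + C1 + J) := ⟨_, rfl⟩
  obtain ⟨l, el⟩ : ∃ l, l = j1 + 2 * k1 + 5 := ⟨_, rfl⟩
  obtain ⟨a0, ea0⟩ : ∃ a0, a0 = 2 * l + j2 + 1 := ⟨_, rfl⟩
  obtain ⟨j0, ej0⟩ : ∃ j0, j0 = 3 * (2 * (A4 + a0) + C1 + J) := ⟨_, rfl⟩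
  obtain ⟨K1, hK1⟩ := hS j1
  obtain ⟨K2, hK2⟩ := hS j0
  obtain ⟨K3, hK3⟩ := hK j0
  obtain ⟨K4, hK4⟩ := exists_nat_ge ((k1 + j0 + 2 * l + 6 : ℝ) / c)
  refine ⟨K1 + K2 + K3 + K4 + (5 * j0 + 1) + (k1 + j0 + 5), fun K hKK => ?_⟩
  obtain ⟨M1, hM1⟩ := hK1 K (by omega)
  obtain ⟨M2, hM2⟩ := hK2 K (by omega)
  obtain ⟨M3, hM3⟩ := hK3 K (by omega)
  refine ⟨M1 + M2 + M3 + (K + J + j2) + 3, fun M hMM C0 hC0 => ?_⟩
  obtain ⟨CS1, hCS1, hSC1⟩ := hM1 M (by omega) C0 hC0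
  obtain ⟨CS0, hCS0, hSC0⟩ := hM2 M (by omega) C0 hC0
  obtain ⟨CK, hCK, hKP⟩ := hM3 M (by omega) C0 hC0
  have hCw := Cw_one
  have hCY : 0 < CY C0 := by unfold CY; positivity
  have hg : 0 < C0 ^ (2 / 3 : ℝ) := by positivity
  have h1a : C1a ≤ C1 := (le_max_left _ _).trans hC1
  have h1b : C1b ≤ C1 := (le_max_right _ _).trans hC1
  obtain ⟨n0, hn0⟩ := pow_unbounded_of_one_lt (1152 * 4 ^ M + 340 * C0) (by norm_num : (1:ℝ) < 2)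
  obtain ⟨Cb, eCb⟩ : ∃ Cb : ℝ, Cb = 72 * CS1 * C0 ^ (2 / 3 : ℝ) + 72 * CS0 * C0 ^ (2 / 3 : ℝ) + 72 * CK * C0 ^ (2 / 3 : ℝ) +
      1440 * C0 ^ 3 * Cw + 18 * 4 ^ M * 4 ^ M * CY C0 + 1152 * C0 ^ 3 * Cw * 4 ^ M + 810 * 4 ^ M * Cw * CY C0 + 1 := ⟨_, rfl⟩
  have hCb : 0 < Cb := by rw [eCb]; positivity
  have hcK : (k1 + j0 + 2 * l + 6 : ℝ) ≤ c * K := by
    rw [div_le_iff₀ hc] at hK4
    have h1 : (K4 : ℝ) ≤ K := by exact_mod_cast (by omega : K4 ≤ K)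
    have h2 := mul_le_mul_of_nonneg_right h1 hc.le
    linarith
  refine ⟨Cb + CK * C0 ^ (2 / 3 : ℝ) * 2 ^ ((C1 + J) * n0 : ℝ), by positivity, ?_⟩
  intro n g Y β Q hn par dim loc hβ hQ amp msQ hno
  have hs := sL_pos K n
  have hsd : (2:ℝ) ^ (4 / 3 * (K * n : ℝ)) = sL K n := rfl
  rw [hsd]
  have hSK := hKP n hn
  rcases hβ.eq_or_lt with hβ0 | hβ0
  · rw [← hβ0]
    have h0 : (0:ℝ) ^ 2 * (Y.card : ℝ) = 0 := by simp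
    rw [h0]
    positivity
  have htr := triv_bound hC0 (by positivity) hSK par dim hβ0 hQ amp msQ
  rcases hQ.eq_or_lt with hQ0 | hQ0
  · rw [← hQ0] at htr ⊢
    simpa using htr
  by_cases hnn : n0 ≤ n
  · -- large `n`
    have hD : 1152 * 4 ^ M + 340 * C0 ≤ (2:ℝ) ^ n := hn0.le.trans (pow_le_pow_right₀ (by norm_num) hnn)
    have hM4 : (1:ℝ) ≤ 4 ^ M := one_le_pow₀ (by norm_num)
    have hn3 : 3 ≤ n := by
      by_contra hcon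
      have h2 : (2:ℝ) ^ n ≤ 2 ^ 2 := pow_le_pow_right₀ (by norm_num) (by omega)
      linarith
    have dt : Dt K n M C0 β Q g Y := ⟨by omega, hn3, hC0, by omega, par, dim, loc, hβ0, hQ0, amp, msQ⟩
    have nu := num_of (K := K) (n := n) (M := M) (J := J) (C1 := C1) (c1 := c1) (C0 := C0) (C1a := C1a) (C1b := C1b)
      (CS1 := CS1) (CS0 := CS0) (CK := CK) (Cb := Cb) hC0 h1a h1b hCS1 hCS0 hCK (by
        rw [div_le_iff₀ hc1] at hj2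
        linarith) eA4 ea1 ek1 ej1 el ea0 ej0 (by omega) (by omega) (by omega) rfl rfl rfl eCb hD
    have hq := q_pf (K := K) (n := n) (c := c) hC0 (by linarith) hcK
    have hfin := fixed dt nu (fun g Y γ β a1 a2 a3 a4 a5 a6 => hSC1 n g Y γ β hn a1 a2 a3 a4 a5 a6)
      (fun g Y γ β a1 a2 a3 a4 a5 a6 => hSC0 n g Y γ β hn a1 a2 a3 a4 a5 a6) hSK hno hq.1 hq.2
    exact fin_large hs hQ0 (by positivity) hCb hJ hfin
  · exact fin_small (not_le.1 hnn) hs hQ0 hg hCK hCb hJ h1a htr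

end Vale.Agent.P076.H322
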