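import Vale.Agent.P122.AN275.BAbs
import Vale.Agent.P122.W840.Sum
import Vale.Agent.P076.H322.STDefs
import Vale.Agent.P076.H322.CS

/-! # P076 / H322 : [ST], energies: tubes near a cube (near / far), total energy -/

set_option autoImplicit false

open MeasureTheory Complex Set Vale.Agent.P122.C2 Vale.Agent.P122.AN Vale.Agent.P076.NS Vale.Agent.P076.H879
open scoped ENNReal NNReal FourierTransform

namespace Vale.Agent.P076.H322

/-- the `L`-ball of the cube `B` -/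
def lb (K n : ℕ) (B : Fin 3 → ℤ) : Fin 3 → ℤ := fun k => B k / 2 ^ ((K - 2) * n)

/-- the ball of the incidence structure: `(time, position)` -/
def ib (K n : ℕ) (j0 : ℤ) (B : Fin 3 → ℤ) : ℤ × (Fin 2 → ℤ) := (lb K n B 2 + j0, ![lb K n B 0, lb K n B 1])

/-- offset of the tube at the time `- j0 L` -/
noncomputable def oo (K n : ℕ) (j0 : ℤ) (S : Nd) : Fin 2 → ℝ := fun k =>
  (S.o k : ℝ) - ((j0 : ℝ) + 2 ^ (K * n) * (S.T : ℝ)) * slp n K S.τ k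

/-- all tubes near the cube of side `D R` -/
noncomputable def TT (K n : ℕ) (a : ℝ) : Finset Nd :=
  ((desc K n 0 0) ×ˢ (Finset.Icc (-⌊a⌋) ⌊a⌋ ×ˢ Fintype.piFinset fun _ : Fin 2 =>
    Finset.Icc (-⌊a * 2 ^ (K * n)⌋) ⌊a * 2 ^ (K * n)⌋)).image fun p => (⟨p.1, p.2.2, p.2.1⟩ : Nd)

theorem mem_TT {K n : ℕ} {a : ℝ} {S : Nd} : S ∈ TT K n a ↔ S.τ ∈ desc K n 0 0 ∧ |(S.T : ℝ)| ≤ a ∧
    ∀ k, |(S.o k : ℝ)| ≤ a * 2 ^ (K * n) := by
  have key : ∀ (m : ℤ) (x : ℝ), (-⌊x⌋ ≤ m ∧ m ≤ ⌊x⌋) ↔ |(m : ℝ)| ≤ x := fun m x => by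
    rw [abs_le, neg_le]
    constructor
    · rintro ⟨h1, h2⟩
      have h1' := Int.le_floor.1 h1
      have h2' := Int.le_floor.1 h2
      push_cast at h1'
      exact ⟨by linarith, h2'⟩
    · rintro ⟨h1, h2⟩
      exact ⟨Int.le_floor.2 (by push_cast; linarith), Int.le_floor.2 h2⟩
  unfold TT
  simp only [Finset.mem_image, Finset.mem_product, Finset.mem_Icc, Fintype.mem_piFinset, Prod.exists]
  constructor
  · rintro ⟨θ, T, o, ⟨h1, h2, h3⟩, rfl⟩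
    exact ⟨h1, (key _ _).1 h2, fun k => (key _ _).1 (h3 k)⟩
  · rintro ⟨h1, h2, h3⟩
    exact ⟨S.τ, S.T, S.o, ⟨h1, (key _ _).2 h2, fun k => (key _ _).2 (h3 k)⟩, rfl⟩

theorem mem_desc {K n : ℕ} {θ : Z2} : θ ∈ desc K n 0 0 ↔ ∀ k, 0 ≤ θ k ∧ θ k < 2 ^ (K * n) := by
  unfold desc
  rw [Fintype.mem_piFinset]
  simp

theorem slp_mem {K n : ℕ} {θ : Z2} (h : θ ∈ desc K n 0 0) (k : Fin 2) : 0 ≤ slp n K θ k ∧ slp n K θ k ≤ 1 := by
  have h1 := mem_desc.1 h k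
  unfold slp
  have h2 : (0:ℝ) ≤ θ k := by exact_mod_cast h1.1
  have h3 : (θ k : ℝ) ≤ 2 ^ (K * n) := by exact_mod_cast h1.2.le
  exact ⟨by positivity, (div_le_one (by positivity)).2 h3⟩

theorem gau_zero (a b c : ℝ) (s : Fin 2 → ℝ) (z : E3) :
    gau 0 a b c s z = |z 0 - s 0 * z 2| / a + |z 1 - s 1 * z 2| / b + |z 2| / c := by
  simp [gau, fw, fn, dv]

theorem cB_apply (n : ℕ) (B : Fin 3 → ℤ) (k : Fin 3) : cB n B k = (2:ℝ) ^ (2 * n) * B k := by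
  unfold cB
  fin_cases k <;> rfl

/-- `c_B / L` and the index of its `L`-ball -/
theorem lb_near {K n : ℕ} (hK : 2 ≤ K) (B : Fin 3 → ℤ) (k : Fin 3) :
    (lb K n B k : ℝ) * 2 ^ (K * n) ≤ cB n B k ∧ cB n B k ≤ (lb K n B k : ℝ) * 2 ^ (K * n) + 2 ^ (K * n) := by
  rw [cB_apply]
  have e : (2:ℝ) ^ (K * n) = 2 ^ (2 * n) * 2 ^ ((K - 2) * n) := by
    rw [← pow_add, ← add_mul]
    congr 2
    omega
  have h0 : (0:ℤ) < 2 ^ ((K - 2) * n) := by positivity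
  have h1 := Int.mul_ediv_add_emod (B k) (2 ^ ((K - 2) * n))
  have h2 := Int.emod_nonneg (B k) h0.ne'
  have h3 := Int.emod_lt_of_pos (B k) h0
  have h4 : (2:ℤ) ^ ((K - 2) * n) * lb K n B k ≤ B k := by unfold lb; linarith
  have h5 : B k ≤ (2:ℤ) ^ ((K - 2) * n) * lb K n B k + 2 ^ ((K - 2) * n) := by unfold lb; linarith
  have h4' : (2:ℝ) ^ ((K - 2) * n) * lb K n B k ≤ B k := by exact_mod_cast h4
  have h5' : (B k : ℝ) ≤ (2:ℝ) ^ ((K - 2) * n) * lb K n B k + 2 ^ ((K - 2) * n) := by exact_mod_cast h5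
  have h6 : (0:ℝ) < 2 ^ (2 * n) := by positivity
  rw [e]
  constructor <;> nlinarith

/-- real content of the near lemma, one coordinate: `x` = coordinate of the point, `t` = its time, `c, c2` = centre, `s` slope,
`q, j` = indices of the ball, `o, T` = indices of the node, `L` = radius, `R = L²` -/
theorem near_T {t c2 T L D C0 : ℝ} (hL : 1 ≤ L) (hD : 8 ≤ D) (hC0 : 1 ≤ C0) (hc2 : |c2| ≤ C0 * L ^ 2)
    (hT : T * L ^ 2 ≤ t ∧ t ≤ T * L ^ 2 + L ^ 2) (h2 : |t - c2| ≤ D / 4 * L ^ 2) : |T| ≤ C0 * D := by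
  have hR : 0 < L ^ 2 := by positivity
  rw [abs_le] at hc2 h2
  have hCD : C0 + D - 1 ≤ C0 * D := by nlinarith
  have e5 : (C0 + 1 + D / 4) * L ^ 2 ≤ C0 * D * L ^ 2 := mul_le_mul_of_nonneg_right (by linarith) hR.le
  rw [abs_le]
  constructor
  · refine le_of_mul_le_mul_right (a := L ^ 2) ?_ hR
    linarith [hT.2, h2.1, hc2.1]
  · refine le_of_mul_le_mul_right (a := L ^ 2) ?_ hR
    linarith [hT.1, h2.2, hc2.2]

theorem near_o {x t c c2 s o T L D C0 : ℝ} (hL : 1 ≤ L) (hD : 8 ≤ D) (hC0 : 1 ≤ C0)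
    (hs0 : 0 ≤ s) (hs1 : s ≤ 1) (hc : |c| ≤ C0 * L ^ 2)
    (hT : T * L ^ 2 ≤ t ∧ t ≤ T * L ^ 2 + L ^ 2) (ho : o * L ≤ x - s * (t - T * L ^ 2) ∧ x - s * (t - T * L ^ 2) ≤ o * L + L)
    (h1 : |x - c - s * (t - c2)| ≤ D / 4 * L) (h2 : |t - c2| ≤ D / 4 * L ^ 2) : |o| ≤ C0 * D * L := by
  have hL0 : 0 < L := by linarith
  rw [abs_le] at hc h1 h2
  have hCD : C0 + D - 1 ≤ C0 * D := by nlinarith
  have hTc : |T * L ^ 2 - c2| ≤ (1 + D / 4) * L ^ 2 := by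
    rw [abs_le]
    constructor <;> linarith [hT.1, hT.2, h2.1, h2.2]
  have e1 : |s * (T * L ^ 2 - c2)| ≤ (1 + D / 4) * L ^ 2 := by
    rw [abs_mul, abs_of_nonneg hs0]
    exact (mul_le_of_le_one_left (abs_nonneg _) hs1).trans hTc
  rw [abs_le] at e1
  have e3 : L ≤ L ^ 2 := by nlinarith
  have e4 : D / 4 * L ≤ D / 4 * L ^ 2 := mul_le_mul_of_nonneg_left e3 (by linarith)
  have e5 : (C0 + 2 + D / 2) * L ^ 2 ≤ C0 * D * L ^ 2 := mul_le_mul_of_nonneg_right (by linarith) (by positivity)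
  have e8 : C0 * D * L * L = C0 * D * L ^ 2 := by ring
  rw [abs_le]
  constructor
  · refine le_of_mul_le_mul_right (a := L) ?_ hL0
    rw [neg_mul, e8]
    linarith [ho.2, h1.1, hc.1, e1.1]
  · refine le_of_mul_le_mul_right (a := L) ?_ hL0
    rw [e8]
    linarith [ho.1, h1.2, hc.2, e1.2]

theorem near_q {x t c c2 s q j o T L D jz : ℝ} (hL : 1 ≤ L) (hD : 8 ≤ D)
    (hs0 : 0 ≤ s) (hs1 : s ≤ 1) (hq : q * L ≤ c ∧ c ≤ q * L + L) (hj : j * L ≤ c2 ∧ c2 ≤ j * L + L)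
    (ho : o * L ≤ x - s * (t - T * L ^ 2) ∧ x - s * (t - T * L ^ 2) ≤ o * L + L)
    (h1 : |x - c - s * (t - c2)| ≤ D / 4 * L) : |q - (o - (jz + L * T) * s) - (j + jz) * s| ≤ D := by
  have hL0 : 0 < L := by linarith
  rw [abs_le] at h1
  have e1 : 0 ≤ s * (c2 - j * L) ∧ s * (c2 - j * L) ≤ L := by
    have h5 : 0 ≤ c2 - j * L := by linarith [hj.1]
    have h6 : c2 - j * L ≤ L := by linarith [hj.2]
    exact ⟨by positivity, (mul_le_of_le_one_left h5 hs1).trans h6⟩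
  have e2 : (q - (o - (jz + L * T) * s) - (j + jz) * s) * L =
      (q * L - c) - (o * L - (x - s * (t - T * L ^ 2))) - (x - c - s * (t - c2)) + s * (c2 - j * L) := by ring
  have e8 : 8 * L ≤ D * L := mul_le_mul_of_nonneg_right hD hL0.le
  rw [abs_le]
  constructor
  · refine le_of_mul_le_mul_right (a := L) ?_ hL0
    rw [e2]
    linarith [hq.1, hq.2, ho.1, ho.2, h1.1, h1.2, e1.1, e1.2]
  · refine le_of_mul_le_mul_right (a := L) ?_ hL0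
    rw [e2]
    linarith [hq.1, hq.2, ho.1, ho.2, h1.1, h1.2, e1.1, e1.2]

open Classical in
/-- the tubes of the cap `θ` near the cube `B` -/
noncomputable def nB (K n : ℕ) (C0 : ℝ) (jz : ℤ) (θ : Z2) (P : ℤ × (Fin 2 → ℤ)) : Finset Nd :=
  (TT K n (C0 * 2 ^ n)).filter fun S => S.τ = θ ∧ Thr (2 ^ n) (oo K n jz S) (slp n K S.τ) P

/-- pointwise near / far: the weight of the tube of slope `θ` through the cube `B` -/
theorem near_far {M K n : ℕ} {C0 : ℝ} (jz : ℤ) (hK : 2 ≤ K) (hD : (8:ℝ) ≤ 2 ^ n) (hC0 : 1 ≤ C0) {θ : Z2}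
    (hθ : θ ∈ desc K n 0 0) {B : Fin 3 → ℤ} (hB : ‖cB n B‖ ≤ C0 * 2 ^ (2 * K * n)) (z : E3) :
    wg M 0 (2 ^ (K * n)) (2 ^ (K * n)) (2 ^ (2 * K * n)) (slp n K θ) (z - cB n B) ≤
      ENNReal.ofReal (4 ^ M) * ∑ S ∈ nB K n C0 jz θ (ib K n jz B), wN M n K S z + ENNReal.ofReal (((2 ^ n / 4) ^ M)⁻¹) := by
  classical
  have hL0 : (0:ℝ) < 2 ^ (K * n) := by positivity
  have hL1 : (1:ℝ) ≤ 2 ^ (K * n) := one_le_pow₀ (by norm_num)
  have hR : (2:ℝ) ^ (2 * K * n) = (2 ^ (K * n)) ^ 2 := by rw [← pow_mul]; congr 1; ring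
  have hR0 : (0:ℝ) < 2 ^ (2 * K * n) := by positivity
  set G : ℝ := gau 0 (2 ^ (K * n)) (2 ^ (K * n)) (2 ^ (2 * K * n)) (slp n K θ) (z - cB n B) with hG
  have hG0 : 0 ≤ G := Vale.Agent.P122.AN275.gau_nonneg hL0 hL0 hR0 _ _
  by_cases hfar : 2 ^ n / 4 < G
  · refine le_trans ?_ le_add_self
    unfold wg
    rw [← hG]
    exact ENNReal.ofReal_le_ofReal (inv_anti₀ (by positivity) (pow_le_pow_left₀ (by positivity) (by linarith) M))
  push Not at hfar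
  refine le_trans ?_ le_self_add
  rw [gau_zero] at hG
  have g0 : |(z - cB n B) 0 - slp n K θ 0 * (z - cB n B) 2| / 2 ^ (K * n) ≤ 2 ^ n / 4 := by
    have a1 : 0 ≤ |(z - cB n B) 1 - slp n K θ 1 * (z - cB n B) 2| / (2:ℝ) ^ (K * n) := by positivity
    have a2 : 0 ≤ |(z - cB n B) 2| / (2:ℝ) ^ (2 * K * n) := by positivity
    linarith
  have g1 : |(z - cB n B) 1 - slp n K θ 1 * (z - cB n B) 2| / 2 ^ (K * n) ≤ 2 ^ n / 4 := by
    have a1 : 0 ≤ |(z - cB n B) 0 - slp n K θ 0 * (z - cB n B) 2| / (2:ℝ) ^ (K * n) := by positivity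
    have a2 : 0 ≤ |(z - cB n B) 2| / (2:ℝ) ^ (2 * K * n) := by positivity
    linarith
  have g2 : |(z - cB n B) 2| / 2 ^ (2 * K * n) ≤ 2 ^ n / 4 := by
    have a1 : 0 ≤ |(z - cB n B) 0 - slp n K θ 0 * (z - cB n B) 2| / (2:ℝ) ^ (K * n) := by positivity
    have a2 : 0 ≤ |(z - cB n B) 1 - slp n K θ 1 * (z - cB n B) 2| / (2:ℝ) ^ (K * n) := by positivity
    linarith
  rw [div_le_iff₀ hL0] at g0 g1
  rw [div_le_iff₀ hR0, hR] at g2
  set T : ℤ := ⌊z 2 / 2 ^ (2 * K * n)⌋ with hTd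
  set o : Z2 := fun k => ⌊(z k.castSucc - slp n K θ k * (z 2 - T * (2 ^ (K * n)) ^ 2)) / 2 ^ (K * n)⌋ with hod
  have fl : ∀ (x y : ℝ), 0 < y → (⌊x / y⌋ : ℝ) * y ≤ x ∧ x ≤ (⌊x / y⌋ : ℝ) * y + y := fun x y hy => by
    have h1 := Int.floor_le (x / y)
    have h2 := Int.lt_floor_add_one (x / y)
    rw [le_div_iff₀ hy] at h1
    rw [div_lt_iff₀ hy] at h2
    exact ⟨h1, by linarith⟩
  have hT := fl (z 2) (2 ^ (2 * K * n)) hR0
  rw [← hTd, hR] at hT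
  have ho : ∀ k, (o k : ℝ) * 2 ^ (K * n) ≤ z k.castSucc - slp n K θ k * (z 2 - T * (2 ^ (K * n)) ^ 2) ∧
      z k.castSucc - slp n K θ k * (z 2 - T * (2 ^ (K * n)) ^ 2) ≤ (o k : ℝ) * 2 ^ (K * n) + 2 ^ (K * n) :=
    fun k => fl _ _ hL0
  have hc : ∀ k, |cB n B k| ≤ C0 * (2 ^ (K * n)) ^ 2 := fun k => by
    rw [← hR]
    refine le_trans ?_ hB
    have := EuclideanSpace.norm_eq (cB n B)
    rw [this, ← Real.norm_eq_abs]
    refine Real.le_sqrt_of_sq_le ?_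
    exact Finset.single_le_sum (f := fun i => ‖cB n B i‖ ^ 2) (fun i _ => sq_nonneg _) (Finset.mem_univ k)
  have h1 : ∀ k : Fin 2, |z k.castSucc - cB n B k.castSucc - slp n K θ k * (z 2 - cB n B 2)| ≤ 2 ^ n / 4 * 2 ^ (K * n) := by
    intro k
    fin_cases k
    · exact g0
    · exact g1
  have hs0 := fun k => (slp_mem hθ k).1
  have hs1 := fun k => (slp_mem hθ k).2
  set S : Nd := ⟨θ, o, T⟩ with hS
  have hmem : S ∈ nB K n C0 jz θ (ib K n jz B) := by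
    unfold nB
    rw [Finset.mem_filter, mem_TT]
    refine ⟨⟨hθ, near_T hL1 hD hC0 (hc 2) hT g2, fun k =>
      near_o hL1 hD hC0 (hs0 k) (hs1 k) (hc k.castSucc) hT (ho k) (h1 k) g2⟩, rfl, fun k => ?_⟩
    have h3 := near_q (jz := (jz:ℝ)) hL1 hD (hs0 k) (hs1 k) (lb_near hK B k.castSucc) (lb_near hK B 2) (ho k) (h1 k)
    have e1 : ((ib K n jz B).2 k : ℝ) = (lb K n B k.castSucc : ℝ) := by
      unfold ib
      fin_cases k <;> rfl
    have e2 : ((ib K n jz B).1 : ℝ) = (lb K n B 2 : ℝ) + jz := by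
      unfold ib
      push_cast
      rfl
    rw [e1, e2]
    exact h3
  refine le_trans ?_ (mul_le_mul_right (Finset.single_le_sum (f := fun S => wN M n K S z) (fun _ _ => zero_le) hmem) _)
  have hgS : gau 0 (2 ^ (K * n)) (2 ^ (K * n)) (2 ^ (2 * K * n)) (slp n K θ) (z - bp n K S) ≤ 3 := by
    rw [gau_zero]
    have b0 : (z - bp n K S) 0 - slp n K θ 0 * (z - bp n K S) 2 = z 0 - slp n K θ 0 * (z 2 - T * (2 ^ (K * n)) ^ 2) - o 0 * 2 ^ (K * n) := by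
      have : (z - bp n K S) 0 = z 0 - 2 ^ (K * n) * (o 0 : ℝ) := rfl
      have h' : (z - bp n K S) 2 = z 2 - 2 ^ (2 * K * n) * (T : ℝ) := rfl
      rw [this, h', hR]; ring
    have b1 : (z - bp n K S) 1 - slp n K θ 1 * (z - bp n K S) 2 = z 1 - slp n K θ 1 * (z 2 - T * (2 ^ (K * n)) ^ 2) - o 1 * 2 ^ (K * n) := by
      have : (z - bp n K S) 1 = z 1 - 2 ^ (K * n) * (o 1 : ℝ) := rfl
      have h' : (z - bp n K S) 2 = z 2 - 2 ^ (2 * K * n) * (T : ℝ) := rfl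
      rw [this, h', hR]; ring
    have b2 : (z - bp n K S) 2 = z 2 - T * (2 ^ (K * n)) ^ 2 := by
      have h' : (z - bp n K S) 2 = z 2 - 2 ^ (2 * K * n) * (T : ℝ) := rfl
      rw [h', hR]; ring
    have c0 : |(z - bp n K S) 0 - slp n K θ 0 * (z - bp n K S) 2| / 2 ^ (K * n) ≤ 1 := by
      rw [b0, div_le_one hL0, abs_le]
      have := ho 0
      have e : z (0 : Fin 2).castSucc = z 0 := rfl
      rw [e] at this
      constructor <;> linarith [this.1, this.2]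
    have c1 : |(z - bp n K S) 1 - slp n K θ 1 * (z - bp n K S) 2| / 2 ^ (K * n) ≤ 1 := by
      rw [b1, div_le_one hL0, abs_le]
      have := ho 1
      have e : z (1 : Fin 2).castSucc = z 1 := rfl
      rw [e] at this
      constructor <;> linarith [this.1, this.2]
    have c2 : |(z - bp n K S) 2| / 2 ^ (2 * K * n) ≤ 1 := by
      rw [b2, div_le_one hR0, abs_le, hR]
      constructor <;> linarith [hT.1, hT.2]
    linarith
  have hg0 : 0 ≤ gau 0 (2 ^ (K * n)) (2 ^ (K * n)) (2 ^ (2 * K * n)) (slp n K θ) (z - bp n K S) :=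
    Vale.Agent.P122.AN275.gau_nonneg hL0 hL0 hR0 _ _
  unfold wN wg
  rw [← ENNReal.ofReal_mul (by positivity)]
  refine ENNReal.ofReal_le_ofReal ?_
  have h4 : (4:ℝ) ^ M * ((1 + gau 0 (2 ^ (K * n)) (2 ^ (K * n)) (2 ^ (2 * K * n)) (slp n K θ) (z - bp n K S)) ^ M)⁻¹ ≥ 1 := by
    rw [ge_iff_le, ← div_eq_mul_inv, one_le_div (by positivity)]
    exact pow_le_pow_left₀ (by positivity) (by linarith) M
  refine le_trans ?_ h4
  refine inv_le_one_of_one_le₀ (one_le_pow₀ ?_)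
  rw [← gau_zero] at hG
  rw [← hG]
  linarith

/-- normalised energy of the piece `θ` -/
noncomputable def e0 (K n : ℕ) (g : Z2 → E3 → ℂ) (θ : Z2) : ℝ≥0∞ :=
  ENNReal.ofReal (((2:ℝ) ^ (4 * K * n))⁻¹) * ∫⁻ z, ‖𝓕⁻ (g θ) z‖ₑ ^ 2

theorem meas_sq {f : E3 → ℂ} (hf : Continuous f) : Measurable fun z => ‖f z‖ₑ ^ 2 :=
  (hf.measurable.enorm.pow_const 2)

theorem measurable_wN (M n K : ℕ) (S : Nd) : Measurable (wN M n K S) :=
  Vale.Agent.P122.AN275.measurable_wg_sub M 0 _ _ _ _ _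

/-- the energy on the tube through `B` is controlled by the near tubes -/
theorem u1_le {M K n : ℕ} {C0 : ℝ} (jz : ℤ) (hK : 2 ≤ K) (hD : (8:ℝ) ≤ 2 ^ n) (hC0 : 1 ≤ C0) {g : Z2 → E3 → ℂ} {θ : Z2}
    (hg : Integrable (g θ)) (hθ : θ ∈ desc K n 0 0) {B : Fin 3 → ℤ} (hB : ‖cB n B‖ ≤ C0 * 2 ^ (2 * K * n)) :
    u1 M K n g θ B ≤ ENNReal.ofReal (4 ^ M) * ∑ S ∈ nB K n C0 jz θ (ib K n jz B), am2 M n K S (𝓕⁻ (g S.τ)) +
      ENNReal.ofReal (((2 ^ n / 4) ^ M)⁻¹) * e0 K n g θ := by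
  classical
  have hc : Continuous (𝓕⁻ (g θ)) := Vale.Agent.P122.AN275.continuous_inv hg
  have hm := meas_sq hc
  have h1 : ∫⁻ z, ‖𝓕⁻ (g θ) z‖ₑ ^ 2 * wg M 0 (2 ^ (K * n)) (2 ^ (K * n)) (2 ^ (2 * K * n)) (slp n K θ) (z - cB n B) ≤
      ENNReal.ofReal (4 ^ M) * (∑ S ∈ nB K n C0 jz θ (ib K n jz B), ∫⁻ z, ‖𝓕⁻ (g θ) z‖ₑ ^ 2 * wN M n K S z) +
        ENNReal.ofReal (((2 ^ n / 4) ^ M)⁻¹) * ∫⁻ z, ‖𝓕⁻ (g θ) z‖ₑ ^ 2 := by
    have hms : ∀ S, Measurable fun z => ‖𝓕⁻ (g θ) z‖ₑ ^ 2 * wN M n K S z := fun S => hm.mul (measurable_wN M n K S)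
    rw [← lintegral_finsetSum _ (fun S _ => hms S), ← lintegral_const_mul _
      (Finset.measurable_fun_sum _ fun S _ => hms S), ← lintegral_const_mul _ hm,
      ← lintegral_add_left ((Finset.measurable_fun_sum _ fun S _ => hms S).const_mul _)]
    refine lintegral_mono fun z => ?_
    refine (mul_le_mul_right (near_far jz hK hD hC0 hθ hB z) _).trans (le_of_eq ?_)
    rw [mul_add, ← Finset.mul_sum]
    ring
  unfold u1
  refine (mul_le_mul_right h1 _).trans (le_of_eq ?_)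
  have h2 : ∑ S ∈ nB K n C0 jz θ (ib K n jz B), am2 M n K S (𝓕⁻ (g S.τ)) = ∑ S ∈ nB K n C0 jz θ (ib K n jz B),
      ENNReal.ofReal (((2:ℝ) ^ (4 * K * n))⁻¹) * ∫⁻ z, ‖𝓕⁻ (g θ) z‖ₑ ^ 2 * wN M n K S z := by
    refine Finset.sum_congr rfl fun S hS => ?_
    unfold nB at hS
    rw [Finset.mem_filter] at hS
    unfold am2
    rw [hS.2.1]
  rw [h2, ← Finset.mul_sum]
  unfold e0
  ring

/-- total energy -/
theorem sum_TT : ∃ Cw : ℝ, 1 ≤ Cw ∧ ∀ (M K n : ℕ) (a : ℝ) (g : Z2 → E3 → ℂ), 3 ≤ M → 1 ≤ a →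
    (∀ θ, Integrable (g θ)) →
      ∑ S ∈ TT K n a, am2 M n K S (𝓕⁻ (g S.τ)) ≤ ENNReal.ofReal (Cw * a) * ∑ θ ∈ desc K n 0 0, e0 K n g θ := by
  obtain ⟨C, hC, h⟩ := Vale.Agent.P122.W840.exists_sum_gau
  refine ⟨3 * (C + 1), by linarith, ?_⟩
  intro M K n a g hM ha hg
  classical
  have hL0 : (0:ℝ) < 2 ^ (K * n) := by positivity
  have hR0 : (0:ℝ) < 2 ^ (2 * K * n) := by positivity
  set O : Finset Z2 := Fintype.piFinset fun _ : Fin 2 => Finset.Icc (-⌊a * 2 ^ (K * n)⌋) ⌊a * 2 ^ (K * n)⌋ with hO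
  have h1 : ∀ (θ : Z2) (T : ℤ), ∑ o ∈ O, am2 M n K ⟨θ, o, T⟩ (𝓕⁻ (g θ)) ≤ ENNReal.ofReal (C + 1) * e0 K n g θ := by
    intro θ T
    have hc : Continuous (𝓕⁻ (g θ)) := Vale.Agent.P122.AN275.continuous_inv (hg θ)
    have hm := meas_sq hc
    have hms : ∀ S, Measurable fun z => ‖𝓕⁻ (g θ) z‖ₑ ^ 2 * wN M n K S z := fun S => hm.mul (measurable_wN M n K S)
    unfold am2 e0
    rw [← Finset.mul_sum, ← lintegral_finsetSum _ (fun S _ => hms _), mul_left_comm]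
    refine mul_le_mul_right ?_ _
    rw [← lintegral_const_mul _ hm]
    refine lintegral_mono fun z => ?_
    simp only
    rw [← Finset.mul_sum, mul_comm]
    refine mul_le_mul_left ?_ _
    unfold wN wg
    rw [← ENNReal.ofReal_sum_of_nonneg (fun _ _ => by
      have := Vale.Agent.P122.AN275.gau_nonneg (θ := 0) hL0 hL0 hR0 (slp n K θ) (z - bp n K ⟨θ, ‹_›, T⟩)
      positivity)]
    refine ENNReal.ofReal_le_ofReal ?_
    refine le_trans ?_ ((h (2 ^ (K * n)) (2 ^ (2 * K * n)) (slp n K θ) O (2 ^ (2 * K * n) * T) z hL0 hR0).trans (by linarith))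
    refine Finset.sum_le_sum fun o _ => ?_
    have hg0 := Vale.Agent.P122.AN275.gau_nonneg (θ := 0) hL0 hL0 hR0 (slp n K θ) (z - bp n K ⟨θ, o, T⟩)
    have hg1 : 1 ≤ 1 + gau 0 (2 ^ (K * n)) (2 ^ (K * n)) (2 ^ (2 * K * n)) (slp n K θ) (z - bp n K ⟨θ, o, T⟩) := by linarith
    have hg2 := pow_le_pow_right₀ hg1 hM
    exact inv_anti₀ (by positivity) hg2
  have hinj : Set.InjOn (fun p : Z2 × (ℤ × Z2) => (⟨p.1, p.2.2, p.2.1⟩ : Nd))
      ((desc K n 0 0) ×ˢ (Finset.Icc (-⌊a⌋) ⌊a⌋ ×ˢ O) : Finset _) := by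
    rintro ⟨θ, T, o⟩ _ ⟨θ', T', o'⟩ _ e
    have e1 := congrArg Nd.τ e
    have e2 := congrArg Nd.o e
    have e3 := congrArg Nd.T e
    simp only at e1 e2 e3
    rw [e1, e2, e3]
  unfold TT
  rw [Finset.sum_image hinj, Finset.sum_product]
  rw [Finset.mul_sum]
  refine Finset.sum_le_sum fun θ _ => ?_
  rw [Finset.sum_product]
  calc ∑ T ∈ Finset.Icc (-⌊a⌋) ⌊a⌋, ∑ o ∈ O, am2 M n K ⟨θ, o, T⟩ (𝓕⁻ (g θ))
      ≤ ∑ _T ∈ Finset.Icc (-⌊a⌋) ⌊a⌋, ENNReal.ofReal (C + 1) * e0 K n g θ := Finset.sum_le_sum fun T _ => h1 θ T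
    _ = ((Finset.Icc (-⌊a⌋) ⌊a⌋).card : ℝ≥0∞) * (ENNReal.ofReal (C + 1) * e0 K n g θ) := by
        rw [Finset.sum_const, nsmul_eq_mul]
    _ ≤ ENNReal.ofReal (3 * a) * (ENNReal.ofReal (C + 1) * e0 K n g θ) := by
        refine mul_le_mul_left ?_ _
        rw [← ENNReal.ofReal_natCast]
        refine ENNReal.ofReal_le_ofReal ?_
        have h0 : (0:ℤ) ≤ ⌊a⌋ := Int.floor_nonneg.2 (by linarith)
        have := card_int (S := Finset.Icc (-⌊a⌋) ⌊a⌋) (a := -a) (b := a) (by linarith) (by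
          intro x hx
          rw [Finset.mem_Icc] at hx
          have h3 := Int.floor_le a
          have h4 : (x:ℝ) ≤ ⌊a⌋ := by exact_mod_cast hx.2
          have h5 : (-⌊a⌋ : ℝ) ≤ x := by exact_mod_cast hx.1
          constructor <;> linarith)
        linarith
    _ = ENNReal.ofReal (3 * (C + 1) * a) * e0 K n g θ := by
        rw [← mul_assoc, ← ENNReal.ofReal_mul (by linarith)]
        congr 2
        ring

theorem sum_e0 (K n : ℕ) (g : Z2 → E3 → ℂ) :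
    ∑ θ ∈ desc K n 0 0, e0 K n g θ = ENNReal.ofReal (((2:ℝ) ^ (2 * K * n))⁻¹) * ms K n g := by
  unfold e0 ms
  rw [← Finset.mul_sum, ← mul_assoc, ← ENNReal.ofReal_mul (by positivity)]
  congr 2
  rw [← mul_inv, ← pow_add]
  congr 2
  ring

end Vale.Agent.P076.H322
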