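import Vale.Agent.P076.H322.ST1

/-! # P076 / H322 : [ST], caps of level `j`: splitting of the function, big caps, shares -/

set_option autoImplicit false

open MeasureTheory Complex Set Vale.Agent.P122.C2 Vale.Agent.P122.AN Vale.Agent.P076.NS Vale.Agent.P076.H879
open scoped ENNReal NNReal FourierTransform

namespace Vale.Agent.P076.H322

/-! ### ancestors -/

theorem anc_anc {K n j1 j0 : ℕ} (h1 : j1 ≤ j0) (h0 : j0 ≤ K) (θ : Z2) :
    anc K n j1 θ = fun i => anc K n j0 θ i / 2 ^ ((j0 - j1) * n) := by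
  unfold anc
  funext i
  rw [Int.ediv_ediv_of_nonneg (by positivity), ← pow_add]
  congr 2
  rw [← add_mul]
  congr 1
  omega

theorem mem_desc_iff {K n j : ℕ} {τ θ : Z2} : θ ∈ desc K n j τ ↔ anc K n j θ = τ := by
  unfold desc anc
  rw [Fintype.mem_piFinset]
  have h0 : (0:ℤ) < 2 ^ ((K - j) * n) := by positivity
  constructor
  · intro h
    funext k
    have h1 := h k
    rw [Finset.mem_Ico] at h1
    rw [Int.ediv_eq_iff_of_pos h0]
    constructor <;> nlinarith [h1.1, h1.2]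
  · rintro rfl k
    rw [Finset.mem_Ico]
    have h1 := Int.mul_ediv_add_emod (θ k) (2 ^ ((K - j) * n))
    have h2 := Int.emod_nonneg (θ k) h0.ne'
    have h3 := Int.emod_lt_of_pos (θ k) h0
    constructor <;> nlinarith

theorem anc_cap {K n j : ℕ} (hj : j ≤ K) {θ : Z2} (h : θ ∈ desc K n 0 0) : Cap n j (anc K n j θ) := by
  intro k
  have h1 := mem_desc.1 h k
  have h0 : (0:ℤ) < 2 ^ ((K - j) * n) := by positivity
  unfold anc
  refine ⟨Int.ediv_nonneg h1.1 h0.le, ?_⟩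
  rw [Int.ediv_lt_iff_lt_mul h0, ← pow_add, ← add_mul]
  have : j + (K - j) = K := by omega
  rw [this]
  exact h1.2

theorem mem_desc_of_anc {K n j : ℕ} (hj : j ≤ K) {θ : Z2} (h : Cap n j (anc K n j θ)) : θ ∈ desc K n 0 0 := by
  rw [mem_desc]
  intro k
  have h1 := h k
  have h0 : (0:ℤ) < 2 ^ ((K - j) * n) := by positivity
  unfold anc at h1
  have h2 := h1.1
  have h3 := h1.2
  rw [Int.ediv_lt_iff_lt_mul h0, ← pow_add, ← add_mul] at h3
  have : j + (K - j) = K := by omega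
  rw [this] at h3
  refine ⟨?_, h3⟩
  by_contra hcon
  push Not at hcon
  have := Int.ediv_neg_of_neg_of_pos hcon h0
  omega

/-- sum of pieces of caps of level `j` -/
theorem sum_pie {K n j : ℕ} (hj : j ≤ K) (g : Z2 → E3 → ℂ) (A : Finset Z2) (hA : ∀ τ ∈ A, Cap n j τ) (z : E3) :
    ∑ τ ∈ A, pie K n g j τ z = ∑ θ ∈ (desc K n 0 0).filter (fun θ => anc K n j θ ∈ A), 𝓕⁻ (g θ) z := by
  classical
  rw [← Finset.sum_fiberwise_of_maps_to (t := A) (g := fun θ => anc K n j θ) (fun θ hθ => (Finset.mem_filter.1 hθ).2)]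
  refine Finset.sum_congr rfl fun τ hτ => ?_
  unfold pie
  refine Finset.sum_congr ?_ fun _ _ => rfl
  ext θ
  rw [mem_desc_iff, Finset.mem_filter, Finset.mem_filter]
  constructor
  · intro h
    exact ⟨⟨mem_desc_of_anc hj (by rw [h]; exact hA τ hτ), by rw [h]; exact hτ⟩, h⟩
  · exact fun h => h.2

/-- the finest caps which are in no cap of `A1` (level `j1`) and in no cap of `A0` (level `j0`) -/
noncomputable def GG (K n j1 j0 : ℕ) (A1 A0 : Finset Z2) : Finset Z2 :=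
  (desc K n 0 0).filter fun θ => anc K n j1 θ ∉ A1 ∧ anc K n j0 θ ∉ A0

/-- the caps of `A0` which are in no cap of `A1` -/
noncomputable def A0' (n j1 j0 : ℕ) (A1 A0 : Finset Z2) : Finset Z2 :=
  A0.filter fun τ => (fun i => τ i / 2 ^ ((j0 - j1) * n)) ∉ A1

theorem split {K n j1 j0 : ℕ} (h1 : j1 ≤ j0) (h0 : j0 ≤ K) (g : Z2 → E3 → ℂ) (A1 A0 : Finset Z2)
    (hA1 : ∀ τ ∈ A1, Cap n j1 τ) (hA0 : ∀ τ ∈ A0, Cap n j0 τ) (z : E3) :
    pie K n g 0 0 z = ∑ τ ∈ A1, pie K n g j1 τ z + ∑ τ ∈ A0' n j1 j0 A1 A0, pie K n g j0 τ z + sF g (GG K n j1 j0 A1 A0) z := by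
  classical
  rw [sum_pie (h1.trans h0) g A1 hA1, sum_pie h0 g (A0' n j1 j0 A1 A0) (fun τ hτ => hA0 τ (Finset.mem_filter.1 hτ).1)]
  unfold sF GG pie
  rw [Finset.sum_filter, Finset.sum_filter, Finset.sum_filter, ← Finset.sum_add_distrib, ← Finset.sum_add_distrib]
  refine Finset.sum_congr rfl fun θ _ => ?_
  have e : anc K n j0 θ ∈ A0' n j1 j0 A1 A0 ↔ anc K n j0 θ ∈ A0 ∧ anc K n j1 θ ∉ A1 := by
    unfold A0'
    rw [Finset.mem_filter, anc_anc h1 h0]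
  by_cases h2 : anc K n j1 θ ∈ A1
  · simp [h2, e]
  · by_cases h3 : anc K n j0 θ ∈ A0
    · simp [h2, h3, e]
    · simp [h2, h3, e]

theorem GG_uni {K n j1 j0 : ℕ} (h1 : j1 ≤ j0) (h0 : j0 ≤ K) (A1 A0 : Finset Z2) : Uni K n j0 (GG K n j1 j0 A1 A0) := by
  intro θ hθ θ' hθ' he
  unfold GG at hθ ⊢
  rw [Finset.mem_filter] at hθ ⊢
  refine ⟨hθ', ?_, ?_⟩
  · rw [anc_anc h1 h0, he, ← anc_anc h1 h0]
    exact hθ.2.1
  · rw [he]
    exact hθ.2.2

theorem GG_sub (K n j1 j0 : ℕ) (A1 A0 : Finset Z2) : GG K n j1 j0 A1 A0 ⊆ desc K n 0 0 := Finset.filter_subset _ _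

/-! ### energies of balls -/

variable {K n : ℕ} {C0 : ℝ} {jz : ℤ} (w : Nd → ℝ)

open Classical in
/-- the tubes through the ball `P` -/
noncomputable def TP (K n : ℕ) (C0 : ℝ) (jz : ℤ) (P : ℤ × (Fin 2 → ℤ)) : Finset Nd :=
  (TT K n (C0 * 2 ^ n)).filter fun S => Thr (2 ^ n) (oo K n jz S) (slp n K S.τ) P

/-- energy of the cap `τ` of level `j` at the ball `P` -/
noncomputable def Uc (K n : ℕ) (C0 : ℝ) (jz : ℤ) (w : Nd → ℝ) (j : ℕ) (τ : Z2) (P : ℤ × (Fin 2 → ℤ)) : ℝ :=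
  ∑ S ∈ (TP K n C0 jz P).filter (fun S => anc K n j S.τ = τ), w S

open Classical in
/-- the big caps of level `j` at the ball `P` -/
noncomputable def BC (K n : ℕ) (C0 : ℝ) (jz : ℤ) (w : Nd → ℝ) (j : ℕ) (h : ℝ) (P : ℤ × (Fin 2 → ℤ)) : Finset Z2 :=
  ((desc K n 0 0).image (anc K n j)).filter fun τ => h ≤ Uc K n C0 jz w j τ P

theorem BC_cap {j : ℕ} (hj : j ≤ K) {h : ℝ} {P : ℤ × (Fin 2 → ℤ)} {τ : Z2} (hτ : τ ∈ BC K n C0 jz w j h P) : Cap n j τ := by
  classical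
  unfold BC at hτ
  rw [Finset.mem_filter, Finset.mem_image] at hτ
  obtain ⟨⟨θ, h1, rfl⟩, _⟩ := hτ
  exact anc_cap hj h1

theorem card_BC (hw : ∀ S, 0 ≤ w S) {j : ℕ} {h : ℝ} {P : ℤ × (Fin 2 → ℤ)} :
    ((BC K n C0 jz w j h P).card : ℝ) * h ≤ ∑ S ∈ TP K n C0 jz P, w S := by
  classical
  have h1 : ((BC K n C0 jz w j h P).card : ℝ) * h ≤ ∑ τ ∈ BC K n C0 jz w j h P, Uc K n C0 jz w j τ P := by
    rw [← nsmul_eq_mul, ← Finset.sum_const]
    refine Finset.sum_le_sum fun τ hτ => ?_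
    unfold BC at hτ
    exact (Finset.mem_filter.1 hτ).2
  refine h1.trans ?_
  unfold Uc
  rw [Finset.sum_fiberwise_eq_sum_filter]
  exact Finset.sum_le_sum_of_subset_of_nonneg (Finset.filter_subset _ _) fun S _ _ => hw S

/-- integers in an interval of length `3` -/
theorem card_four {S : Finset ℤ} {x : ℝ} (h : ∀ m ∈ S, x - 2 ≤ m ∧ (m : ℝ) ≤ x + 1) : S.card ≤ 4 := by
  have h1 := card_int (S := S) (a := x - 2) (b := x + 1) (by linarith) h
  have h2 : (S.card : ℝ) ≤ 4 := by linarith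
  exact_mod_cast h2

/-- the part of a ball of slopes of radius `2 ^ (- j n)` in the caps which are not big -/
theorem share {j : ℕ} (hj : j ≤ K) {h : ℝ} (hh : 0 ≤ h) {P : ℤ × (Fin 2 → ℤ)} (u : Fin 2 → ℝ) (X : Finset Nd)
    (hw : ∀ S, 0 ≤ w S) (hX : X ⊆ TP K n C0 jz P)
    (hb : ∀ S ∈ X, anc K n j S.τ ∉ BC K n C0 jz w j h P)
    (hu : ∀ S ∈ X, ‖slp n K S.τ - u‖ ≤ ((2:ℝ) ^ (j * n))⁻¹) : ∑ S ∈ X, w S ≤ 16 * h := by
  classical
  set Z : Finset Z2 := X.image fun S => anc K n j S.τ with hZ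
  have h0 : (0:ℤ) < 2 ^ ((K - j) * n) := by positivity
  have hD : (0:ℝ) < 2 ^ (j * n) := by positivity
  have hcard : ∀ k : Fin 2, (Z.image fun τ => τ k).card ≤ 4 := fun k => by
    refine card_four (x := u k * 2 ^ (j * n)) fun m hm => ?_
    rw [Finset.mem_image] at hm
    obtain ⟨τ, hτ, rfl⟩ := hm
    rw [hZ, Finset.mem_image] at hτ
    obtain ⟨S, hS, rfl⟩ := hτ
    have h1 : |slp n K S.τ k - u k| ≤ ((2:ℝ) ^ (j * n))⁻¹ := (norm_le_pi_norm (slp n K S.τ - u) k).trans (hu S hS)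
    have h2 : |slp n K S.τ k * 2 ^ (j * n) - u k * 2 ^ (j * n)| ≤ 1 := by
      rw [← sub_mul, abs_mul, abs_of_pos hD]
      calc _ ≤ ((2:ℝ) ^ (j * n))⁻¹ * 2 ^ (j * n) := mul_le_mul_of_nonneg_right h1 hD.le
        _ = 1 := inv_mul_cancel₀ hD.ne'
    have h3 : slp n K S.τ k * 2 ^ (j * n) = (S.τ k : ℝ) / 2 ^ ((K - j) * n) := by
      unfold slp
      have : (2:ℝ) ^ (K * n) = 2 ^ ((K - j) * n) * 2 ^ (j * n) := by
        rw [← pow_add, ← add_mul]
        congr 2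
        omega
      rw [this]
      field_simp
    have h4 : (2:ℤ) ^ ((K - j) * n) * (anc K n j S.τ k) ≤ S.τ k := by
      unfold anc
      exact Int.mul_ediv_self_le h0.ne'
    have h5 : S.τ k < (2:ℤ) ^ ((K - j) * n) * (anc K n j S.τ k) + 2 ^ ((K - j) * n) := by
      unfold anc
      have h1 := Int.mul_ediv_add_emod (S.τ k) (2 ^ ((K - j) * n))
      have h3 := Int.emod_lt_of_pos (S.τ k) h0
      linarith
    have h4' : (2:ℝ) ^ ((K - j) * n) * (anc K n j S.τ k) ≤ S.τ k := by exact_mod_cast h4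
    have h5' : (S.τ k : ℝ) < (2:ℝ) ^ ((K - j) * n) * (anc K n j S.τ k) + 2 ^ ((K - j) * n) := by exact_mod_cast h5
    have hE : (0:ℝ) < 2 ^ ((K - j) * n) := by positivity
    have h6 : (anc K n j S.τ k : ℝ) ≤ (S.τ k : ℝ) / 2 ^ ((K - j) * n) := by
      rw [le_div_iff₀ hE]
      linarith
    have h7 : (S.τ k : ℝ) / 2 ^ ((K - j) * n) < (anc K n j S.τ k : ℝ) + 1 := by
      rw [div_lt_iff₀ hE]
      linarith
    rw [abs_le] at h2
    rw [← h3] at h6 h7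
    constructor <;> linarith [h2.1, h2.2]
  have hZc : Z.card ≤ 16 := by
    have h1 : Z ⊆ Fintype.piFinset fun k => Z.image fun τ => τ k := fun τ hτ => by
      rw [Fintype.mem_piFinset]
      exact fun k => Finset.mem_image_of_mem _ hτ
    refine (Finset.card_le_card h1).trans ?_
    rw [Fintype.card_piFinset, Fin.prod_univ_two]
    exact Nat.mul_le_mul (hcard 0) (hcard 1)
  have h1 : ∀ τ ∈ Z, ∑ S ∈ X.filter (fun S => anc K n j S.τ = τ), w S ≤ h := fun τ hτ => by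
    rw [hZ, Finset.mem_image] at hτ
    obtain ⟨S, hS, rfl⟩ := hτ
    have h2 := hb S hS
    have h3 : anc K n j S.τ ∈ (desc K n 0 0).image (anc K n j) := by
      refine Finset.mem_image_of_mem _ ?_
      have h4 := hX hS
      unfold TP at h4
      exact (mem_TT.1 (Finset.mem_filter.1 h4).1).1
    unfold BC at h2
    rw [Finset.mem_filter] at h2
    push Not at h2
    refine le_trans ?_ (h2 h3).le
    unfold Uc
    exact Finset.sum_le_sum_of_subset_of_nonneg (Finset.filter_subset_filter _ hX) fun S _ _ => hw S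
  calc ∑ S ∈ X, w S = ∑ τ ∈ Z, ∑ S ∈ X.filter (fun S => anc K n j S.τ = τ), w S :=
        (Finset.sum_fiberwise_of_maps_to (fun S hS => Finset.mem_image_of_mem _ hS) _).symm
    _ ≤ ∑ _τ ∈ Z, h := Finset.sum_le_sum h1
    _ = Z.card * h := by rw [Finset.sum_const, nsmul_eq_mul]
    _ ≤ 16 * h := mul_le_mul_of_nonneg_right (by exact_mod_cast hZc) hh

/-- total energy of a set of balls -/
theorem sum_TP {N : ℝ} (hw : ∀ S, 0 ≤ w S) (hN : 0 ≤ N) (Ps : Finset (ℤ × (Fin 2 → ℤ)))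
    (h0 : ∀ P ∈ Ps, 0 ≤ P.1 ∧ (P.1 : ℝ) ≤ N) :
    ∑ P ∈ Ps, ∑ S ∈ TP K n C0 jz P, w S ≤ (N + 1) * (2 * 2 ^ n + 1) ^ 2 * ∑ S ∈ TT K n (C0 * 2 ^ n), w S := by
  classical
  have h1 : ∑ P ∈ Ps, ∑ S ∈ TP K n C0 jz P, w S = ∑ S ∈ TT K n (C0 * 2 ^ n), ∑ P ∈ Ps.filter
      (fun P => Thr (2 ^ n) (oo K n jz S) (slp n K S.τ) P), w S := by
    unfold TP
    simp only [Finset.sum_filter]
    exact Finset.sum_comm
  rw [h1, Finset.mul_sum]
  refine Finset.sum_le_sum fun S _ => ?_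
  rw [Finset.sum_const, nsmul_eq_mul]
  refine mul_le_mul_of_nonneg_right ?_ (hw S)
  have h2 := card_balls (S := Ps.filter fun P => Thr (2 ^ n) (oo K n jz S) (slp n K S.τ) P) (a := 0) (b := N)
    (f := fun j k => oo K n jz S k + j * slp n K S.τ k) (C0 := 2 ^ n) (by positivity) hN (by
      intro P hP
      rw [Finset.mem_filter] at hP
      refine ⟨by exact_mod_cast (h0 P hP.1).1, (h0 P hP.1).2, fun k => ?_⟩
      have := hP.2 k
      rwa [← sub_sub])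
  linarith

end Vale.Agent.P076.H322
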