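import Vale.Agent.P076.H322.ST2

/-! # P076 / H322 : [ST], real valued energies and the two inputs in real form -/

set_option autoImplicit false

open MeasureTheory Complex Set Vale.Agent.P122.C2 Vale.Agent.P122.AN Vale.Agent.P076.NS Vale.Agent.P076.H879
open scoped ENNReal NNReal FourierTransform

namespace Vale.Agent.P076.H322

/-- energy of the tube `S` -/
noncomputable def wS (M K n : ℕ) (g : Z2 → E3 → ℂ) (S : Nd) : ℝ := (am2 M n K S (𝓕⁻ (g S.τ))).toReal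

theorem wS_nonneg (M K n : ℕ) (g : Z2 → E3 → ℂ) (S : Nd) : 0 ≤ wS M K n g S := ENNReal.toReal_nonneg

/-- the constant of `sum_TT` -/
noncomputable def Cw : ℝ := Classical.choose sum_TT

theorem Cw_one : 1 ≤ Cw := (Classical.choose_spec sum_TT).1

theorem sum_am2 {M K n : ℕ} {a Q : ℝ} {g : Z2 → E3 → ℂ} (hM : 3 ≤ M) (ha : 1 ≤ a) (hg : ∀ θ, Integrable (g θ)) (_hQ : 0 ≤ Q)
    (h : ms K n g ≤ ENNReal.ofReal Q) : ∑ S ∈ TT K n a, am2 M n K S (𝓕⁻ (g S.τ)) ≤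
      ENNReal.ofReal (Cw * a * (((2:ℝ) ^ (2 * K * n))⁻¹ * Q)) := by
  have hC := Cw_one
  refine ((Classical.choose_spec sum_TT).2 M K n a g hM ha hg).trans ?_
  rw [sum_e0]
  calc ENNReal.ofReal (Cw * a) * (ENNReal.ofReal (((2:ℝ) ^ (2 * K * n))⁻¹) * ms K n g)
      ≤ ENNReal.ofReal (Cw * a) * (ENNReal.ofReal (((2:ℝ) ^ (2 * K * n))⁻¹) * ENNReal.ofReal Q) := by gcongr
    _ = _ := by rw [← ENNReal.ofReal_mul (by positivity), ← ENNReal.ofReal_mul (by positivity)]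

theorem am2_ne_top {M K n : ℕ} {a Q : ℝ} {g : Z2 → E3 → ℂ} (hM : 3 ≤ M) (ha : 1 ≤ a) (hg : ∀ θ, Integrable (g θ)) (hQ : 0 ≤ Q)
    (h : ms K n g ≤ ENNReal.ofReal Q) {S : Nd} (hS : S ∈ TT K n a) : am2 M n K S (𝓕⁻ (g S.τ)) ≠ ⊤ := by
  have h1 := sum_am2 hM ha hg hQ h
  have h2 : am2 M n K S (𝓕⁻ (g S.τ)) ≤ ∑ S ∈ TT K n a, am2 M n K S (𝓕⁻ (g S.τ)) :=
    Finset.single_le_sum (f := fun S : Nd => am2 M n K S (𝓕⁻ (g S.τ))) (fun _ _ => zero_le) hS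
  exact ((h2.trans h1).trans_lt ENNReal.ofReal_lt_top).ne

theorem sum_wS {M K n : ℕ} {a Q : ℝ} {g : Z2 → E3 → ℂ} (hM : 3 ≤ M) (ha : 1 ≤ a) (hg : ∀ θ, Integrable (g θ)) (hQ : 0 ≤ Q)
    (h : ms K n g ≤ ENNReal.ofReal Q) : ∑ S ∈ TT K n a, wS M K n g S ≤ Cw * a * (((2:ℝ) ^ (2 * K * n))⁻¹ * Q) := by
  have hC := Cw_one
  unfold wS
  rw [← ENNReal.toReal_sum fun S hS => am2_ne_top hM ha hg hQ h hS]
  exact ENNReal.toReal_le_of_le_ofReal (by positivity) (sum_am2 hM ha hg hQ h)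

/-- sums of `am2` over near tubes in terms of `wS` -/
theorem sum_ofReal {M K n : ℕ} {a Q : ℝ} {g : Z2 → E3 → ℂ} (hM : 3 ≤ M) (ha : 1 ≤ a) (hg : ∀ θ, Integrable (g θ)) (hQ : 0 ≤ Q)
    (h : ms K n g ≤ ENNReal.ofReal Q) {U : Finset Nd} (hU : U ⊆ TT K n a) :
    ∑ S ∈ U, am2 M n K S (𝓕⁻ (g S.τ)) = ENNReal.ofReal (∑ S ∈ U, wS M K n g S) := by
  rw [ENNReal.ofReal_sum_of_nonneg fun S _ => wS_nonneg M K n g S]
  exact Finset.sum_congr rfl fun S hS => (ENNReal.ofReal_toReal (am2_ne_top hM ha hg hQ h (hU hS))).symm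

/-- the energy at a cube is carried by the near tubes, up to a small error -/
theorem uF_le {M K n : ℕ} {C0 Q : ℝ} (jz : ℤ) {g : Z2 → E3 → ℂ} (hK : 2 ≤ K) (hD : (8:ℝ) ≤ 2 ^ n) (hC0 : 1 ≤ C0) (hM : 3 ≤ M)
    (hg : ∀ θ, Integrable (g θ)) (hQ : 0 ≤ Q) (h : ms K n g ≤ ENNReal.ofReal Q) {B : Fin 3 → ℤ}
    (hB : ‖cB n B‖ ≤ C0 * 2 ^ (2 * K * n)) {G : Finset Z2} (hG : G ⊆ desc K n 0 0) :
    uF M K n g G B ≤ ENNReal.ofReal (4 ^ M * (∑ S ∈ (TP K n C0 jz (ib K n jz B)).filter (fun S => S.τ ∈ G), wS M K n g S) +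
      ((2 ^ n / 4) ^ M)⁻¹ * (((2:ℝ) ^ (2 * K * n))⁻¹ * Q)) := by
  classical
  have ha : 1 ≤ C0 * 2 ^ n := by nlinarith
  have h1 : ∑ θ ∈ G, ∑ S ∈ nB K n C0 jz θ (ib K n jz B), am2 M n K S (𝓕⁻ (g S.τ)) =
      ∑ S ∈ (TP K n C0 jz (ib K n jz B)).filter (fun S => S.τ ∈ G), am2 M n K S (𝓕⁻ (g S.τ)) := by
    rw [← Finset.sum_fiberwise_eq_sum_filter]
    refine Finset.sum_congr rfl fun θ _ => Finset.sum_congr ?_ fun _ _ => rfl
    unfold nB TP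
    ext S
    simp only [Finset.mem_filter]
    tauto
  have h2 : (TP K n C0 jz (ib K n jz B)).filter (fun S => S.τ ∈ G) ⊆ TT K n (C0 * 2 ^ n) :=
    (Finset.filter_subset _ _).trans (Finset.filter_subset _ _)
  have h3 : ∑ θ ∈ G, e0 K n g θ ≤ ENNReal.ofReal (((2:ℝ) ^ (2 * K * n))⁻¹ * Q) := by
    refine (Finset.sum_le_sum_of_subset hG).trans ?_
    rw [sum_e0, ENNReal.ofReal_mul (by positivity)]
    gcongr
  have h4 : 0 ≤ ∑ S ∈ (TP K n C0 jz (ib K n jz B)).filter (fun S => S.τ ∈ G), wS M K n g S :=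
    Finset.sum_nonneg fun S _ => wS_nonneg M K n g S
  unfold uF
  calc ∑ θ ∈ G, u1 M K n g θ B ≤ ∑ θ ∈ G, (ENNReal.ofReal (4 ^ M) * (∑ S ∈ nB K n C0 jz θ (ib K n jz B),
        am2 M n K S (𝓕⁻ (g S.τ))) + ENNReal.ofReal (((2 ^ n / 4) ^ M)⁻¹) * e0 K n g θ) :=
        Finset.sum_le_sum fun θ hθ => u1_le jz hK hD hC0 (hg θ) (hG hθ) hB
    _ = ENNReal.ofReal (4 ^ M) * ENNReal.ofReal (∑ S ∈ (TP K n C0 jz (ib K n jz B)).filter (fun S => S.τ ∈ G), wS M K n g S) +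
          ENNReal.ofReal (((2 ^ n / 4) ^ M)⁻¹) * ∑ θ ∈ G, e0 K n g θ := by
        rw [Finset.sum_add_distrib, ← Finset.mul_sum, ← Finset.mul_sum, h1, sum_ofReal hM ha hg hQ h h2]
    _ ≤ _ := by
        rw [ENNReal.ofReal_add (by positivity) (by positivity), ENNReal.ofReal_mul (by positivity),
          ENNReal.ofReal_mul (by positivity)]
        gcongr

/-! ### powers -/

/-- `L ^ (4 / 3)` -/
noncomputable def sL (K n : ℕ) : ℝ := 2 ^ (4 / 3 * (K * n : ℝ))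

theorem sL_pos (K n : ℕ) : 0 < sL K n := by unfold sL; positivity

/-- `(γ / L) ^ (1 / 3) L ^ (4 / 3) = γ ^ (1 / 3) L` -/
theorem sL_mul {K n : ℕ} {γ : ℝ} (hγ : 0 ≤ γ) : (γ / 2 ^ (K * n)) ^ (1 / 3 : ℝ) * sL K n = γ ^ (1 / 3 : ℝ) * 2 ^ (K * n) := by
  unfold sL
  have hL : (0:ℝ) < 2 ^ (K * n) := by positivity
  have e : (2:ℝ) ^ (4 / 3 * (K * n : ℝ)) = ((2:ℝ) ^ (K * n)) ^ (4 / 3 : ℝ) := by
    rw [← Real.rpow_natCast, ← Real.rpow_mul (by norm_num)]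
    congr 1
    push_cast
    ring
  rw [e, Real.div_rpow hγ hL.le, div_mul_eq_mul_div, div_eq_iff (by positivity), mul_assoc]
  congr 1
  nth_rewrite 2 [← Real.rpow_one ((2:ℝ) ^ (K * n))]
  rw [← Real.rpow_add hL]
  norm_num

/-! ### the inputs, real form -/

/-- [SC] for fixed parameters -/
def SCn (C0 : ℝ) (M K n j : ℕ) (A : ℝ) : Prop := ∀ (g : Z2 → E3 → ℂ) (Y : Finset (Fin 3 → ℤ)) (γ β : ℝ), Par C0 K n g → 0 < γ →
  γ ≤ C0 → Dim2 K n Y γ → 0 < β → (∀ B ∈ Y, ∃ τ : Z2, Cap n j τ ∧ ENNReal.ofReal (β ^ 6) ≤ b6 M n B (pie K n g j τ)) →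
    ENNReal.ofReal (β ^ 2 * Y.card) ≤ ENNReal.ofReal (A * γ ^ (2 / 3 : ℝ) * 2 ^ (4 / 3 * (K * n : ℝ))) * ms K n g

theorem real_of {x A Q : ℝ} {m : ℝ≥0∞} (hA : 0 ≤ A) (hQ : 0 ≤ Q) (h : ENNReal.ofReal x ≤ ENNReal.ofReal A * m)
    (hm : m ≤ ENNReal.ofReal Q) : x ≤ A * Q := by
  have h1 := h.trans (mul_le_mul_right hm _)
  rw [← ENNReal.ofReal_mul hA] at h1
  exact (ENNReal.ofReal_le_ofReal_iff (by positivity)).1 h1

theorem sc_real {C0 : ℝ} {M K n j : ℕ} {A : ℝ} (hA : 0 ≤ A) (h : SCn C0 M K n j A) {g : Z2 → E3 → ℂ}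
    {Y : Finset (Fin 3 → ℤ)} {γ β Q : ℝ} (hg : Par C0 K n g) (hγ : 0 < γ) (hγC : γ ≤ C0) (hY : Dim2 K n Y γ) (hβ : 0 < β)
    (hb : ∀ B ∈ Y, ∃ τ : Z2, Cap n j τ ∧ ENNReal.ofReal (β ^ 6) ≤ b6 M n B (pie K n g j τ)) (hQ : 0 ≤ Q)
    (hm : ms K n g ≤ ENNReal.ofReal Q) : β ^ 2 * Y.card ≤ A * γ ^ (2 / 3 : ℝ) * sL K n * Q := by
  have := sL_pos K n
  exact real_of (by positivity) hQ (h g Y γ β hg hγ hγC hY hβ hb) hm

theorem kpg_real {c1 C0 : ℝ} {M K n j N : ℕ} {A : ℝ} (hA : 0 ≤ A) (h : Claim c1 C0 M K n j N A) {g : Z2 → E3 → ℂ}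
    {Y : Finset (Fin 3 → ℤ)} {G : (Fin 3 → ℤ) → Finset Z2} {γ β b Q : ℝ} (hy : Hyp C0 M K n j N g Y G γ β b) (hQ : 0 ≤ Q)
    (hm : ms K n g ≤ ENNReal.ofReal Q) : β ^ 2 * Y.card ≤ A * b ^ c1 * γ ^ (2 / 3 : ℝ) * sL K n * Q := by
  have h1 := sL_pos K n
  have h2 := hy.γ0
  have h3 := hy.b0
  exact real_of (by positivity) hQ (h g Y G γ β b hy) hm

theorem dim_mono {K n : ℕ} {Y Y' : Finset (Fin 3 → ℤ)} {γ : ℝ} (h : Dim2 K n Y γ) (hY : Y' ⊆ Y) : Dim2 K n Y' γ :=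
  fun r p h1 h2 => le_trans (by
    have := Finset.card_le_card (Finset.filter_subset_filter (fun B => dist (cB n B) p ≤ r) hY)
    exact_mod_cast this) (h r p h1 h2)

theorem lb_lt {K n : ℕ} (hK : 2 ≤ K) (B : Fin 3 → ℤ) (k : Fin 3) :
    cB n B k < (lb K n B k : ℝ) * 2 ^ (K * n) + 2 ^ (K * n) := by
  rw [cB_apply]
  have e : (2:ℝ) ^ (K * n) = 2 ^ (2 * n) * 2 ^ ((K - 2) * n) := by
    rw [← pow_add, ← add_mul]
    congr 2
    omega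
  have h0 : (0:ℤ) < 2 ^ ((K - 2) * n) := by positivity
  have h1 := Int.mul_ediv_add_emod (B k) (2 ^ ((K - 2) * n))
  have h3 := Int.emod_lt_of_pos (B k) h0
  have h5 : B k < (2:ℤ) ^ ((K - 2) * n) * lb K n B k + 2 ^ ((K - 2) * n) := by unfold lb; linarith
  have h5' : (B k : ℝ) < (2:ℝ) ^ ((K - 2) * n) * lb K n B k + 2 ^ ((K - 2) * n) := by exact_mod_cast h5
  have h6 : (0:ℝ) < 2 ^ (2 * n) := by positivity
  rw [e]
  nlinarith

/-- labels: sets depending only on the `L`-ball take at most `27` values -/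
theorem lab {K n j : ℕ} {β' : Type*} [DecidableEq β'] (hK : 2 ≤ K) (hn : 3 ≤ n) (hj : 5 * j + 1 ≤ K) (Y : Finset (Fin 3 → ℤ))
    (F : (Fin 3 → ℤ) → β') (p : E3) :
    ((Y.filter fun B => dist (cB n B) p ≤ 100 ^ j * 2 ^ (2 * j * n)).image fun B => F (lb K n B)).card ≤ 27 := by
  classical
  have hL : (0:ℝ) < 2 ^ (K * n) := by positivity
  have hr : (100:ℝ) ^ j * 2 ^ (2 * j * n) ≤ 2 ^ (K * n) := by
    have h1 : (100:ℝ) ^ j ≤ 2 ^ (3 * j * n) := by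
      have : (2:ℝ) ^ (3 * j * n) = (2 ^ (3 * n)) ^ j := by rw [← pow_mul]; congr 1; ring
      rw [this]
      refine pow_le_pow_left₀ (by norm_num) ?_ j
      have : (2:ℝ) ^ 9 ≤ 2 ^ (3 * n) := pow_le_pow_right₀ (by norm_num) (by omega)
      linarith
    calc (100:ℝ) ^ j * 2 ^ (2 * j * n) ≤ 2 ^ (3 * j * n) * 2 ^ (2 * j * n) := mul_le_mul_of_nonneg_right h1 (by positivity)
      _ = 2 ^ (5 * j * n) := by rw [← pow_add]; congr 1; ring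
      _ ≤ 2 ^ (K * n) := pow_le_pow_right₀ (by norm_num) (Nat.mul_le_mul_right _ (by omega))
  set r : ℝ := 100 ^ j * 2 ^ (2 * j * n) with hrd
  set Z : Finset (Fin 3 → ℤ) := (Y.filter fun B => dist (cB n B) p ≤ r).image (lb K n) with hZ
  have h1 : ((Y.filter fun B => dist (cB n B) p ≤ r).image fun B => F (lb K n B)).card ≤ Z.card := by
    have e : ((Y.filter fun B => dist (cB n B) p ≤ r).image fun B => F (lb K n B)) = Z.image F := by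
      rw [hZ, Finset.image_image]
      rfl
    rw [e]
    exact Finset.card_image_le
  refine h1.trans ?_
  have h2 : Z ⊆ Fintype.piFinset fun k => Finset.Icc ⌊(p k - r) / 2 ^ (K * n)⌋ ⌊(p k + r) / 2 ^ (K * n)⌋ := by
    intro P hP
    rw [hZ, Finset.mem_image] at hP
    obtain ⟨B, hB, rfl⟩ := hP
    rw [Finset.mem_filter] at hB
    rw [Fintype.mem_piFinset]
    intro k
    have h3 := lb_near hK B k (n := n)
    have h4 : |cB n B k - p k| ≤ r := by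
      refine le_trans ?_ hB.2
      rw [EuclideanSpace.dist_eq, ← Real.dist_eq]
      refine Real.le_sqrt_of_sq_le ?_
      exact Finset.single_le_sum (f := fun i => dist (cB n B i) (p i) ^ 2) (fun i _ => sq_nonneg _) (Finset.mem_univ k)
    rw [abs_le] at h4
    rw [Finset.mem_Icc]
    constructor
    · rw [Int.floor_le_iff, div_lt_iff₀ hL]
      have h5 := lb_lt hK B k (n := n)
      nlinarith [h3.1, h4.1, h4.2]
    · rw [Int.le_floor, le_div_iff₀ hL]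
      nlinarith [h3.1, h3.2, h4.1, h4.2]
  refine (Finset.card_le_card h2).trans ?_
  rw [Fintype.card_piFinset, Fin.prod_univ_three]
  have h5 : ∀ k, (Finset.Icc ⌊(p k - r) / 2 ^ (K * n)⌋ ⌊(p k + r) / 2 ^ (K * n)⌋).card ≤ 3 := fun k => by
    rw [Int.card_Icc]
    have h6 : (⌊(p k + r) / 2 ^ (K * n)⌋ : ℝ) ≤ (p k + r) / 2 ^ (K * n) := Int.floor_le _
    have h7 := Int.lt_floor_add_one ((p k - r) / 2 ^ (K * n))
    have h8 : (p k + r) / 2 ^ (K * n) - (p k - r) / 2 ^ (K * n) ≤ 2 := by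
      rw [← sub_div, div_le_iff₀ hL]
      linarith
    have h9 : (⌊(p k + r) / 2 ^ (K * n)⌋ : ℝ) < ⌊(p k - r) / 2 ^ (K * n)⌋ + 3 := by linarith
    have h10 : ⌊(p k + r) / 2 ^ (K * n)⌋ < ⌊(p k - r) / 2 ^ (K * n)⌋ + 3 := by exact_mod_cast h9
    omega
  calc _ ≤ 3 * 3 * 3 := Nat.mul_le_mul (Nat.mul_le_mul (h5 0) (h5 1)) (h5 2)
    _ = 27 := rfl

end Vale.Agent.P076.H322
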