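import Vale.Agent.P076.H322.ST3
import Vale.Agent.P076.H551.Dim

/-! # P076 / H322 : [ST], one of three parts is large -/

set_option autoImplicit false

open MeasureTheory Complex Set Vale.Agent.P122.C2 Vale.Agent.P122.AN Vale.Agent.P076.NS Vale.Agent.P076.H879
open scoped ENNReal NNReal FourierTransform

namespace Vale.Agent.P076.H322

theorem pow_six_sum {ι : Type*} (I : Finset ι) (a : ι → ℝ≥0∞) : (∑ i ∈ I, a i) ^ 6 ≤ (I.card : ℝ≥0∞) ^ 5 * ∑ i ∈ I, a i ^ 6 := by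
  have h := ENNReal.rpow_sum_le_const_mul_sum_rpow I a (p := 6) (by norm_num)
  have e1 : ∀ x : ℝ≥0∞, x ^ (6:ℝ) = x ^ 6 := fun x => by
    rw [show (6:ℝ) = ((6:ℕ):ℝ) by norm_num, ENNReal.rpow_natCast]
  have e2 : (I.card : ℝ≥0∞) ^ ((6:ℝ) - 1) = (I.card : ℝ≥0∞) ^ 5 := by
    rw [show (6:ℝ) - 1 = ((5:ℕ):ℝ) by norm_num, ENNReal.rpow_natCast]
  rw [e2] at h
  simpa only [e1] using h

theorem b6_exists {ι : Type*} (M n : ℕ) (B : Fin 3 → ℤ) (I : Finset ι) (f : ι → E3 → ℂ) (hf : ∀ i ∈ I, Continuous (f i))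
    {β m : ℝ} (hβ : 0 < β) (hm : (I.card : ℝ) ≤ m) (h : ENNReal.ofReal (β ^ 6) ≤ b6 M n B (fun z => ∑ i ∈ I, f i z)) :
    ∃ i ∈ I, ENNReal.ofReal ((β / m) ^ 6) ≤ b6 M n B (f i) := by
  have hwm : Measurable (wB M n B) := Vale.Agent.P122.AN275.measurable_wg_sub M 0 _ _ _ _ _
  have hfm : ∀ i ∈ I, Measurable fun z => ‖f i z‖ₑ ^ 6 * wB M n B z := fun i hi =>
    ((hf i hi).measurable.enorm.pow_const 6).mul hwm
  have h1 : b6 M n B (fun z => ∑ i ∈ I, f i z) ≤ (I.card : ℝ≥0∞) ^ 5 * ∑ i ∈ I, b6 M n B (f i) := by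
    unfold b6
    rw [← Finset.mul_sum, ← lintegral_finsetSum _ hfm, mul_left_comm]
    refine mul_le_mul_right ?_ _
    rw [← lintegral_const_mul _ (Finset.measurable_fun_sum _ hfm)]
    refine lintegral_mono fun z => ?_
    calc ‖∑ i ∈ I, f i z‖ₑ ^ 6 * wB M n B z ≤ (∑ i ∈ I, ‖f i z‖ₑ) ^ 6 * wB M n B z := by
          gcongr
          exact enorm_sum_le _ _
      _ ≤ ((I.card : ℝ≥0∞) ^ 5 * ∑ i ∈ I, ‖f i z‖ₑ ^ 6) * wB M n B z := by
          gcongr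
          exact pow_six_sum I _
      _ = (I.card : ℝ≥0∞) ^ 5 * ∑ i ∈ I, ‖f i z‖ₑ ^ 6 * wB M n B z := by
          rw [mul_assoc, Finset.sum_mul]
  rcases I.eq_empty_or_nonempty with rfl | hI
  · exfalso
    have h2 := h.trans h1
    simp only [Finset.sum_empty, mul_zero, nonpos_iff_eq_zero, ENNReal.ofReal_eq_zero] at h2
    have : 0 < β ^ 6 := by positivity
    linarith
  by_contra hcon
  push Not at hcon
  have hc : (0:ℝ) < I.card := by exact_mod_cast hI.card_pos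
  have hm0 : 0 < m := hc.trans_le hm
  have h2 : ∑ i ∈ I, b6 M n B (f i) < I.card * ENNReal.ofReal ((β / m) ^ 6) := by
    rw [← nsmul_eq_mul, ← Finset.sum_const]
    exact ENNReal.sum_lt_sum_of_nonempty hI hcon
  have h3 : (I.card : ℝ≥0∞) ^ 5 * ∑ i ∈ I, b6 M n B (f i) < (I.card : ℝ≥0∞) ^ 5 * (I.card * ENNReal.ofReal ((β / m) ^ 6)) := by
    refine (ENNReal.mul_lt_mul_iff_right ?_ ?_).2 h2
    · exact pow_ne_zero _ (by exact_mod_cast hI.card_pos.ne')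
    · exact ENNReal.pow_ne_top (ENNReal.natCast_ne_top _)
  have h4 : (I.card : ℝ≥0∞) ^ 5 * (I.card * ENNReal.ofReal ((β / m) ^ 6)) ≤ ENNReal.ofReal (β ^ 6) := by
    rw [← ENNReal.ofReal_natCast, ← ENNReal.ofReal_pow (by positivity), ← ENNReal.ofReal_mul (by positivity),
      ← ENNReal.ofReal_mul (by positivity)]
    refine ENNReal.ofReal_le_ofReal ?_
    have e : (I.card : ℝ) ^ 5 * (I.card * (β / m) ^ 6) = (β * (I.card / m)) ^ 6 := by ring
    rw [e]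
    refine pow_le_pow_left₀ (by positivity) ?_ 6
    have : (I.card : ℝ) / m ≤ 1 := (div_le_one hm0).2 hm
    nlinarith
  exact absurd (h.trans h1) (not_le.2 (h3.trans_le h4))

theorem continuous_pie {K n : ℕ} {g : Z2 → E3 → ℂ} (hg : ∀ θ, Integrable (g θ)) (j : ℕ) (τ : Z2) :
    Continuous (pie K n g j τ) := by
  unfold pie
  exact continuous_finset_sum _ fun θ _ => Vale.Agent.P122.AN275.continuous_inv (hg θ)

theorem continuous_sF {g : Z2 → E3 → ℂ} (hg : ∀ θ, Integrable (g θ)) (G : Finset Z2) :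
    Continuous (sF g G) := by
  unfold sF
  exact continuous_finset_sum _ fun θ _ => Vale.Agent.P122.AN275.continuous_inv (hg θ)

/-- one big cap, or one smaller big cap, or the rest -/
theorem three {K n M j1 j0 : ℕ} (h1 : j1 ≤ j0) (h0 : j0 ≤ K) {g : Z2 → E3 → ℂ} (hg : ∀ θ, Integrable (g θ)) (A1 A0 : Finset Z2)
    (hA1 : ∀ τ ∈ A1, Cap n j1 τ) (hA0 : ∀ τ ∈ A0, Cap n j0 τ) {β m1 m0 : ℝ} (hβ : 0 < β) (hm1 : (A1.card : ℝ) ≤ m1)
    (hm0 : (A0.card : ℝ) ≤ m0) {B : Fin 3 → ℤ} (h : ENNReal.ofReal (β ^ 6) ≤ b6 M n B (pie K n g 0 0)) :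
    (∃ τ, Cap n j1 τ ∧ ENNReal.ofReal ((β / (3 * m1)) ^ 6) ≤ b6 M n B (pie K n g j1 τ)) ∨
    (∃ τ, Cap n j0 τ ∧ ENNReal.ofReal ((β / (3 * m0)) ^ 6) ≤ b6 M n B (pie K n g j0 τ)) ∨
    ENNReal.ofReal ((β / 3) ^ 6) ≤ b6 M n B (sF g (GG K n j1 j0 A1 A0)) := by
  set F : Fin 3 → E3 → ℂ := ![fun z => ∑ τ ∈ A1, pie K n g j1 τ z, fun z => ∑ τ ∈ A0' n j1 j0 A1 A0, pie K n g j0 τ z,
    sF g (GG K n j1 j0 A1 A0)] with hF
  have hF0 : F 0 = fun z => ∑ τ ∈ A1, pie K n g j1 τ z := rfl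
  have hF1 : F 1 = fun z => ∑ τ ∈ A0' n j1 j0 A1 A0, pie K n g j0 τ z := rfl
  have hF2 : F 2 = sF g (GG K n j1 j0 A1 A0) := rfl
  have hc : ∀ i ∈ (Finset.univ : Finset (Fin 3)), Continuous (F i) := fun i _ => by
    fin_cases i
    · exact continuous_finset_sum _ fun τ _ => continuous_pie hg j1 τ
    · exact continuous_finset_sum _ fun τ _ => continuous_pie hg j0 τ
    · exact continuous_sF hg _
  have e : pie K n g 0 0 = fun z => ∑ i ∈ (Finset.univ : Finset (Fin 3)), F i z := by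
    funext z
    rw [split h1 h0 g A1 A0 hA1 hA0 z, Fin.sum_univ_three, hF0, hF1, hF2]
  rw [e] at h
  obtain ⟨i, _, hi⟩ := b6_exists M n B Finset.univ F hc hβ (m := 3) (by simp) h
  have hβ3 : 0 < β / 3 := by positivity
  have hi' : i = 0 ∨ i = 1 ∨ i = 2 := by fin_cases i <;> simp
  rcases hi' with rfl | rfl | rfl
  · left
    rw [hF0] at hi
    obtain ⟨τ, hτ, h3⟩ := b6_exists M n B A1 _ (fun τ _ => continuous_pie hg j1 τ) hβ3 hm1 hi
    exact ⟨τ, hA1 τ hτ, by rwa [div_div] at h3⟩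
  · right; left
    rw [hF1] at hi
    have hcard : ((A0' n j1 j0 A1 A0).card : ℝ) ≤ m0 := le_trans (by
      exact_mod_cast Finset.card_le_card (Finset.filter_subset _ _)) hm0
    obtain ⟨τ, hτ, h3⟩ := b6_exists M n B (A0' n j1 j0 A1 A0) _ (fun τ _ => continuous_pie hg j0 τ) hβ3 hcard hi
    exact ⟨τ, hA0 τ (Finset.mem_filter.1 hτ).1, by rwa [div_div] at h3⟩
  · right; right
    rw [hF2] at hi
    exact hi

end Vale.Agent.P076.H322
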