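import Vale.Agent.P076.H322.ST4

/-! # P076 / H322 : [ST], half of the cubes carry energy in caps which are not big -/

set_option autoImplicit false

open MeasureTheory Complex Set Vale.Agent.P122.C2 Vale.Agent.P122.AN Vale.Agent.P076.NS Vale.Agent.P076.H879
open scoped ENNReal NNReal FourierTransform

namespace Vale.Agent.P076.H322

/-- the data -/
structure Dt (K n M : ℕ) (C0 β Q : ℝ) (g : Z2 → E3 → ℂ) (Y : Finset (Fin 3 → ℤ)) : Prop where
  hK : 2 ≤ K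
  hn : 3 ≤ n
  hC0 : 1 ≤ C0
  hM : 3 ≤ M
  par : Par C0 K n g
  dim : Dim2 K n Y C0
  loc : ∀ B ∈ Y, ‖cB n B‖ ≤ C0 * 2 ^ (2 * K * n)
  β0 : 0 < β
  Q0 : 0 < Q
  amp : ∀ B ∈ Y, ENNReal.ofReal (β ^ 6) ≤ b6 M n B (pie K n g 0 0)
  msQ : ms K n g ≤ ENNReal.ofReal Q

/-- shift of time -/
noncomputable def jz (K n : ℕ) (C0 : ℝ) : ℤ := ⌈C0 * 2 ^ (K * n)⌉ + 1

variable {K n M : ℕ} {C0 β Q : ℝ} {g : Z2 → E3 → ℂ} {Y : Finset (Fin 3 → ℤ)}

theorem Dt.hD (h : Dt K n M C0 β Q g Y) : (8:ℝ) ≤ 2 ^ n := by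
  calc (8:ℝ) = 2 ^ 3 := by norm_num
    _ ≤ 2 ^ n := pow_le_pow_right₀ (by norm_num) h.hn

theorem Dt.hL (h : Dt K n M C0 β Q g Y) : (8:ℝ) ≤ 2 ^ (K * n) := by
  have h1 := h.hn
  have h2 := h.hK
  calc (8:ℝ) = 2 ^ 3 := by norm_num
    _ ≤ 2 ^ (K * n) := pow_le_pow_right₀ (by norm_num) (by nlinarith)

theorem Dt.int (h : Dt K n M C0 β Q g Y) : ∀ θ, Integrable (g θ) := h.par.int

theorem ib_time (h : Dt K n M C0 β Q g Y) {B : Fin 3 → ℤ} (hB : B ∈ Y) :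
    0 ≤ (ib K n (jz K n C0) B).1 ∧ ((ib K n (jz K n C0) B).1 : ℝ) ≤ 4 * C0 * 2 ^ (K * n) := by
  have hL := h.hL
  have hL0 : (0:ℝ) < 2 ^ (K * n) := by linarith
  have hC := h.hC0
  have h1 := (H551.abs_apply_le (cB n B) 2).trans (h.loc B hB)
  have hR : (2:ℝ) ^ (2 * K * n) = 2 ^ (K * n) * 2 ^ (K * n) := by rw [← pow_add]; congr 1; ring
  rw [hR, abs_le] at h1
  have h2 := lb_near h.hK B 2 (n := n)
  have h3 := Int.le_ceil (C0 * 2 ^ (K * n))
  have h4 := Int.ceil_lt_add_one (C0 * 2 ^ (K * n))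
  have h5 : (lb K n B 2 : ℝ) ≤ C0 * 2 ^ (K * n) := by
    refine le_of_mul_le_mul_right (a := 2 ^ (K * n)) ?_ hL0
    linarith [h2.1, h1.2]
  have h6 : -(C0 * 2 ^ (K * n)) - 1 ≤ (lb K n B 2 : ℝ) := by
    refine le_of_mul_le_mul_right (a := 2 ^ (K * n)) ?_ hL0
    linarith [h2.2, h1.1]
  have h7 : (8:ℝ) ≤ C0 * 2 ^ (K * n) := by nlinarith
  unfold ib jz
  constructor
  · have h8 : (0:ℝ) ≤ (lb K n B 2 : ℝ) + (⌈C0 * 2 ^ (K * n)⌉ + 1) := by linarith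
    exact_mod_cast h8
  · push_cast
    linarith

/-- cubes and balls -/
theorem card_cubes (h : Dt K n M C0 β Q g Y) {H : Finset (Fin 3 → ℤ)} (hH : H ⊆ Y) :
    (H.card : ℝ) ≤ 4 * C0 * (2 ^ (K * n)) ^ 2 * (H.image (ib K n (jz K n C0))).card := by
  classical
  have h1 : H.card = ∑ P ∈ H.image (ib K n (jz K n C0)), (H.filter fun B => ib K n (jz K n C0) B = P).card :=
    Finset.card_eq_sum_card_image _ _
  have h2 : ∀ P ∈ H.image (ib K n (jz K n C0)), ((H.filter fun B => ib K n (jz K n C0) B = P).card : ℝ) ≤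
      4 * C0 * (2 ^ (K * n)) ^ 2 := fun P hP => by
    obtain ⟨B0, _, rfl⟩ := Finset.mem_image.1 hP
    refine le_trans ?_ (H551.card_lb h.hK (by have := h.hn; omega) (by have := h.hC0; linarith) (dim_mono h.dim hH) (lb K n B0))
    have : (H.filter fun B => ib K n (jz K n C0) B = ib K n (jz K n C0) B0) ⊆ H.filter fun B => lb K n B = lb K n B0 := by
      intro B hB
      rw [Finset.mem_filter] at hB ⊢
      refine ⟨hB.1, ?_⟩
      have e := hB.2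
      unfold ib at e
      have e1 := congrArg Prod.fst e
      have e2 := congrArg Prod.snd e
      simp only at e1 e2
      have e3 := congrFun e2 0
      have e4 := congrFun e2 1
      simp only [Matrix.cons_val_zero, Matrix.cons_val_one] at e3 e4
      funext k
      fin_cases k
      · exact e3
      · exact e4
      · exact add_right_cancel e1
    exact_mod_cast Finset.card_le_card this
  calc (H.card : ℝ) = ∑ P ∈ H.image (ib K n (jz K n C0)), ((H.filter fun B => ib K n (jz K n C0) B = P).card : ℝ) := by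
        rw [h1]; push_cast; rfl
    _ ≤ ∑ _P ∈ H.image (ib K n (jz K n C0)), 4 * C0 * (2 ^ (K * n)) ^ 2 := Finset.sum_le_sum h2
    _ = _ := by rw [Finset.sum_const, nsmul_eq_mul]; ring

/-- energy through the ball -/
noncomputable def Tot (M K n : ℕ) (C0 : ℝ) (g : Z2 → E3 → ℂ) (P : ℤ × (Fin 2 → ℤ)) : ℝ :=
  ∑ S ∈ TP K n C0 (jz K n C0) P, wS M K n g S

theorem heavy (h : Dt K n M C0 β Q g Y) {H : Finset (Fin 3 → ℤ)} (hH : H ⊆ Y) {X : ℝ}
    (hX : ∀ B ∈ H, X ≤ Tot M K n C0 g (ib K n (jz K n C0) B)) :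
    H.card * X ≤ 180 * C0 ^ 3 * Cw * (2 ^ n) ^ 3 * 2 ^ (K * n) * Q := by
  have hC := h.hC0
  have hCw := Cw_one
  have hD := h.hD
  have hL := h.hL
  have hQ := h.Q0
  set L : ℝ := 2 ^ (K * n) with hLd
  set D : ℝ := 2 ^ n with hDd
  have hR : (2:ℝ) ^ (2 * K * n) = L ^ 2 := by rw [hLd, ← pow_mul]; congr 1; ring
  rcases le_or_gt X 0 with hX0 | hX0
  · have : (H.card : ℝ) * X ≤ 0 := mul_nonpos_of_nonneg_of_nonpos (Nat.cast_nonneg _) hX0
    refine this.trans (by positivity)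
  have ha : 1 ≤ C0 * D := by nlinarith
  have h1 := sum_TP (K := K) (n := n) (C0 := C0) (jz := jz K n C0) (wS M K n g) (N := 4 * C0 * L) (wS_nonneg M K n g) (by positivity)
    (H.image (ib K n (jz K n C0))) (by
      intro P hP
      obtain ⟨B, hB, rfl⟩ := Finset.mem_image.1 hP
      exact ib_time h (hH hB))
  have h2 := sum_wS (M := M) (K := K) (n := n) (a := C0 * D) h.hM ha h.int hQ.le h.msQ
  have h3 : ((H.image (ib K n (jz K n C0))).card : ℝ) * X ≤ ∑ P ∈ H.image (ib K n (jz K n C0)), Tot M K n C0 g P := by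
    rw [← nsmul_eq_mul, ← Finset.sum_const]
    refine Finset.sum_le_sum fun P hP => ?_
    obtain ⟨B, hB, rfl⟩ := Finset.mem_image.1 hP
    exact hX B hB
  have h4 := card_cubes h hH
  rw [← hLd] at h4
  rw [hR] at h2
  have h5 : ((H.image (ib K n (jz K n C0))).card : ℝ) * X ≤ (4 * C0 * L + 1) * (2 * D + 1) ^ 2 * (Cw * (C0 * D) * ((L ^ 2)⁻¹ * Q)) := by
    refine h3.trans (h1.trans ?_)
    exact mul_le_mul_of_nonneg_left h2 (by positivity)
  have h6 : (4 * C0 * L + 1) * (2 * D + 1) ^ 2 ≤ (5 * C0 * L) * (9 * D ^ 2) := by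
    have : 1 ≤ C0 * L := by nlinarith
    refine mul_le_mul (by linarith) (by nlinarith) (by positivity) (by positivity)
  calc (H.card : ℝ) * X ≤ 4 * C0 * L ^ 2 * (H.image (ib K n (jz K n C0))).card * X := mul_le_mul_of_nonneg_right h4 hX0.le
    _ = 4 * C0 * L ^ 2 * ((H.image (ib K n (jz K n C0))).card * X) := by ring
    _ ≤ 4 * C0 * L ^ 2 * ((4 * C0 * L + 1) * (2 * D + 1) ^ 2 * (Cw * (C0 * D) * ((L ^ 2)⁻¹ * Q))) :=
        mul_le_mul_of_nonneg_left h5 (by positivity)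
    _ ≤ 4 * C0 * L ^ 2 * ((5 * C0 * L) * (9 * D ^ 2) * (Cw * (C0 * D) * ((L ^ 2)⁻¹ * Q))) := by
        refine mul_le_mul_of_nonneg_left ?_ (by positivity)
        exact mul_le_mul_of_nonneg_right h6 (by positivity)
    _ = 180 * C0 ^ 3 * Cw * D ^ 3 * L * Q := by
        field_simp
        ring

/-- use of near-criticality -/
theorem small {x y A sQ Cb DJ : ℝ} (hDJ : 0 < DJ) (hsQ : 0 ≤ sQ) (h1 : x ≤ A * sQ) (NC : Cb * sQ < DJ * y)
    (h : 8 * A * DJ ≤ Cb) : 8 * x ≤ y := by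
  have h2 : 8 * A * DJ * sQ ≤ Cb * sQ := mul_le_mul_of_nonneg_right h hsQ
  have h3 : 8 * DJ * x ≤ 8 * DJ * (A * sQ) := mul_le_mul_of_nonneg_left h1 (by positivity)
  have h4 : DJ * (8 * x) ≤ DJ * y := by nlinarith
  exact le_of_mul_le_mul_left h4 hDJ

/-- half of the cubes carry energy in caps which are not big -/
theorem core1 (h : Dt K n M C0 β Q g Y) {j1 j0 J A4 a1 a0 j2 : ℕ} {c1 S1 S0 SK Cb : ℝ} (hj : j1 ≤ j0) (hj0 : 5 * j0 + 1 ≤ K)
    (hS1 : SCn C0 M K n j1 S1) (hS0 : SCn C0 M K n j0 S0) (hSK : Claim c1 C0 M K n j0 27 SK)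
    (p1 : 0 ≤ S1) (p0 : 0 ≤ S0) (pK : 0 ≤ SK)
    (q1 : 72 * S1 * ((2 ^ n) ^ (A4 + a1)) ^ 2 * C0 ^ (2 / 3 : ℝ) * (2 ^ n) ^ J ≤ Cb)
    (q0 : 72 * S0 * ((2 ^ n) ^ (A4 + a0)) ^ 2 * C0 ^ (2 / 3 : ℝ) * (2 ^ n) ^ J ≤ Cb)
    (qK : 72 * SK * (((2 ^ n) ^ j2)⁻¹) ^ c1 * C0 ^ (2 / 3 : ℝ) * (2 ^ n) ^ J ≤ Cb)
    (q4 : 1440 * C0 ^ 3 * Cw * (2 ^ n) ^ 3 * (2 ^ n) ^ J ≤ Cb * (2 ^ n) ^ A4)
    (NC : Cb * (sL K n * Q) < (2 ^ n) ^ J * (β ^ 2 * Y.card)) :
    ∃ YF ⊆ Y, (Y.card : ℝ) ≤ 2 * YF.card ∧ ∃ G : ℤ × (Fin 2 → ℤ) → Finset Z2, (∀ P, G P ⊆ desc K n 0 0) ∧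
      (∀ P, ∀ θ ∈ G P,
        anc K n j1 θ ∉ BC K n C0 (jz K n C0) (wS M K n g) j1
          (((2 ^ n) ^ a1)⁻¹ * (β ^ 2 * (C0 / 2 ^ (K * n)) ^ (1 / 3 : ℝ))) P ∧
        anc K n j0 θ ∉ BC K n C0 (jz K n C0) (wS M K n g) j0
          (((2 ^ n) ^ a0)⁻¹ * (β ^ 2 * (C0 / 2 ^ (K * n)) ^ (1 / 3 : ℝ))) P) ∧
      ∀ B ∈ YF, ((2 ^ n) ^ j2)⁻¹ * ((β / 3) ^ 2 * (C0 / 2 ^ (K * n)) ^ (1 / 3 : ℝ)) <
        4 ^ M * (∑ S ∈ (TP K n C0 (jz K n C0) (ib K n (jz K n C0) B)).filter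
          (fun S => S.τ ∈ G (ib K n (jz K n C0) B)), wS M K n g S) +
          ((2 ^ n / 4) ^ M)⁻¹ * (((2:ℝ) ^ (2 * K * n))⁻¹ * Q) := by
  classical
  have hC := h.hC0
  have hCw := Cw_one
  have hD := h.hD
  have hL := h.hL
  have hQ := h.Q0
  have hβ := h.β0
  have hs := sL_pos K n
  have hts := sL_mul (K := K) (n := n) (γ := C0) (by linarith)
  have hg3 : 1 ≤ C0 ^ (1 / 3 : ℝ) := Real.one_le_rpow hC (by norm_num)
  set L : ℝ := 2 ^ (K * n) with hLd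
  set D : ℝ := 2 ^ n with hDd
  set t : ℝ := (C0 / L) ^ (1 / 3 : ℝ) with htd
  have ht : 0 < t := by positivity
  set θ : ℝ := β ^ 2 * t with hθd
  have hθ : 0 < θ := by positivity
  have hDJ : 0 < D ^ J := by positivity
  have hsQ : 0 ≤ sL K n * Q := by positivity
  set m1 : ℝ := D ^ (A4 + a1) with hm1
  set m0 : ℝ := D ^ (A4 + a0) with hm0
  have hm1' : 0 < m1 := by positivity
  have hm0' : 0 < m0 := by positivity
  have hj0K : j0 ≤ K := by omega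
  set w := wS M K n g with hw
  set z := jz K n C0 with hz
  set A1 : ℤ × (Fin 2 → ℤ) → Finset Z2 := fun P => BC K n C0 z w j1 ((D ^ a1)⁻¹ * θ) P with hA1
  set A0 : ℤ × (Fin 2 → ℤ) → Finset Z2 := fun P => BC K n C0 z w j0 ((D ^ a0)⁻¹ * θ) P with hA0
  set G : ℤ × (Fin 2 → ℤ) → Finset Z2 := fun P => GG K n j1 j0 (A1 P) (A0 P) with hG
  set b : ℝ := (D ^ j2)⁻¹ with hb
  have hb0 : 0 < b := by positivity
  have hb1 : b ≤ 1 := inv_le_one_of_one_le₀ (one_le_pow₀ (by linarith))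
  set H : Finset (Fin 3 → ℤ) := Y.filter fun B => D ^ A4 * θ < Tot M K n C0 g (ib K n z B) with hH
  set Y1 : Finset (Fin 3 → ℤ) := Y.filter fun B => ∃ τ, Cap n j1 τ ∧
    ENNReal.ofReal ((β / (3 * m1)) ^ 6) ≤ b6 M n B (pie K n g j1 τ) with hY1
  set Y0 : Finset (Fin 3 → ℤ) := Y.filter fun B => ∃ τ, Cap n j0 τ ∧
    ENNReal.ofReal ((β / (3 * m0)) ^ 6) ≤ b6 M n B (pie K n g j0 τ) with hY0
  set YK : Finset (Fin 3 → ℤ) := Y.filter fun B => ENNReal.ofReal ((β / 3) ^ 6) ≤ b6 M n B (sF g (G (ib K n z B))) ∧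
    uF M K n g (G (ib K n z B)) B ≤ ENNReal.ofReal (b * ((β / 3) ^ 2 * t)) with hYK
  set YF : Finset (Fin 3 → ℤ) := Y.filter fun B => B ∉ H ∧ B ∉ Y1 ∧ B ∉ Y0 ∧ B ∉ YK with hYF
  -- the heavy balls
  have e4 : 8 * (H.card : ℝ) ≤ Y.card := by
    have h1 := heavy h (H := H) (Finset.filter_subset _ _) (X := D ^ A4 * θ) (fun B hB => (Finset.mem_filter.1 hB).2.le)
    rw [← hDd, ← hLd] at h1
    have h2 : L ≤ t * sL K n := by rw [hts]; nlinarith
    have h3 : D ^ A4 * t * (β ^ 2 * H.card) ≤ D ^ A4 * t * ((180 * C0 ^ 3 * Cw * D ^ 3 / D ^ A4) * (sL K n * Q)) := by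
      calc D ^ A4 * t * (β ^ 2 * H.card) = H.card * (D ^ A4 * θ) := by rw [hθd]; ring
        _ ≤ 180 * C0 ^ 3 * Cw * D ^ 3 * L * Q := h1
        _ ≤ 180 * C0 ^ 3 * Cw * D ^ 3 * (t * sL K n) * Q := by gcongr
        _ = _ := by field_simp
    have h4 := le_of_mul_le_mul_left h3 (by positivity)
    have h5 := small hDJ hsQ h4 NC (by
      rw [← sub_nonneg] at q4 ⊢
      have : Cb - 8 * (180 * C0 ^ 3 * Cw * D ^ 3 / D ^ A4) * D ^ J =
          (Cb * D ^ A4 - 1440 * C0 ^ 3 * Cw * D ^ 3 * D ^ J) / D ^ A4 := by field_simp; ring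
      rw [this]
      positivity)
    have h6 : β ^ 2 * (8 * (H.card : ℝ)) ≤ β ^ 2 * Y.card := by linarith
    exact le_of_mul_le_mul_left h6 (by positivity)
  have sc : ∀ (j : ℕ) (S m : ℝ) (Y' : Finset (Fin 3 → ℤ)), Y' ⊆ Y → SCn C0 M K n j S → 0 ≤ S → 0 < m →
      72 * S * m ^ 2 * C0 ^ (2 / 3 : ℝ) * D ^ J ≤ Cb →
      (∀ B ∈ Y', ∃ τ, Cap n j τ ∧ ENNReal.ofReal ((β / (3 * m)) ^ 6) ≤ b6 M n B (pie K n g j τ)) →
      8 * (Y'.card : ℝ) ≤ Y.card := by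
    intro j S m Y' hY' hS hS0 hm hq hB
    have h1 := sc_real hS0 hS h.par (by linarith) le_rfl (dim_mono h.dim hY') (by positivity) hB hQ.le h.msQ
    have h2 : β ^ 2 * (Y'.card : ℝ) ≤ (9 * m ^ 2 * S * C0 ^ (2 / 3 : ℝ)) * (sL K n * Q) := by
      have e : β ^ 2 * (Y'.card : ℝ) = 9 * m ^ 2 * ((β / (3 * m)) ^ 2 * Y'.card) := by field_simp; ring
      rw [e]
      calc 9 * m ^ 2 * ((β / (3 * m)) ^ 2 * Y'.card) ≤ 9 * m ^ 2 * (S * C0 ^ (2 / 3 : ℝ) * sL K n * Q) := by gcongr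
        _ = _ := by ring
    have h5 := small hDJ hsQ h2 NC (by
      refine le_trans (le_of_eq ?_) hq
      ring)
    have h6 : β ^ 2 * (8 * (Y'.card : ℝ)) ≤ β ^ 2 * Y.card := by linarith
    exact le_of_mul_le_mul_left h6 (by positivity)
  have e1 : 8 * (Y1.card : ℝ) ≤ Y.card := sc j1 S1 m1 Y1 (Finset.filter_subset _ _) hS1 p1 hm1' q1
    fun B hB => (Finset.mem_filter.1 hB).2
  have e0 : 8 * (Y0.card : ℝ) ≤ Y.card := sc j0 S0 m0 Y0 (Finset.filter_subset _ _) hS0 p0 hm0' q0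
    fun B hB => (Finset.mem_filter.1 hB).2
  have eK : 8 * (YK.card : ℝ) ≤ Y.card := by
    have hy : Hyp C0 M K n j0 27 g YK (fun B => G (ib K n z B)) C0 (β / 3) b :=
      { par := h.par
        γ0 := by linarith
        dim := dim_mono h.dim (Finset.filter_subset _ _)
        β0 := by positivity
        b0 := hb0
        b1 := hb1
        lab := fun _ p => lab h.hK h.hn hj0 YK (fun P : Fin 3 → ℤ => G (P 2 + z, ![P 0, P 1])) p
        sub := fun B _ => GG_sub K n j1 j0 _ _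
        uni := fun B _ => GG_uni hj hj0K _ _
        amp := fun B hB => (Finset.mem_filter.1 hB).2.1
        enr := Or.inr fun B hB => (Finset.mem_filter.1 hB).2.2 }
    have h1 := kpg_real pK hSK hy hQ.le h.msQ
    have h2 : β ^ 2 * (YK.card : ℝ) ≤ (9 * SK * b ^ c1 * C0 ^ (2 / 3 : ℝ)) * (sL K n * Q) := by
      have e : β ^ 2 * (YK.card : ℝ) = 9 * ((β / 3) ^ 2 * YK.card) := by ring
      rw [e]
      calc 9 * ((β / 3) ^ 2 * YK.card) ≤ 9 * (SK * b ^ c1 * C0 ^ (2 / 3 : ℝ) * sL K n * Q) := by gcongr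
        _ = _ := by ring
    have h5 := small hDJ hsQ h2 NC (by
      refine le_trans (le_of_eq ?_) qK
      ring)
    have h6 : β ^ 2 * (8 * (YK.card : ℝ)) ≤ β ^ 2 * Y.card := by linarith
    exact le_of_mul_le_mul_left h6 (by positivity)
  refine ⟨YF, Finset.filter_subset _ _, ?_, G, fun P => GG_sub K n j1 j0 _ _, fun P θ' hθ' => ?_, fun B hB => ?_⟩
  · have hsub : Y ⊆ H ∪ (Y1 ∪ (Y0 ∪ (YK ∪ YF))) := by
      intro B hB
      simp only [Finset.mem_union]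
      by_contra hcon
      push Not at hcon
      exact hcon.2.2.2.2 (Finset.mem_filter.2 ⟨hB, hcon.1, hcon.2.1, hcon.2.2.1, hcon.2.2.2.1⟩)
    have h1 : Y.card ≤ H.card + (Y1.card + (Y0.card + (YK.card + YF.card))) :=
      (Finset.card_le_card hsub).trans ((Finset.card_union_le _ _).trans (Nat.add_le_add_left
        ((Finset.card_union_le _ _).trans (Nat.add_le_add_left ((Finset.card_union_le _ _).trans
          (Nat.add_le_add_left (Finset.card_union_le _ _) _)) _)) _))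
    have h2 : (Y.card : ℝ) ≤ H.card + (Y1.card + (Y0.card + (YK.card + YF.card))) := by exact_mod_cast h1
    linarith
  · have h1 := hθ'
    rw [hG] at h1
    simp only at h1
    unfold GG at h1
    exact (Finset.mem_filter.1 h1).2
  · have hBF := (Finset.mem_filter.1 hB).2
    have hBY := (Finset.mem_filter.1 hB).1
    have hlight : Tot M K n C0 g (ib K n z B) ≤ D ^ A4 * θ := by
      by_contra hcon
      push Not at hcon
      exact hBF.1 (Finset.mem_filter.2 ⟨hBY, hcon⟩)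
    have cnt : ∀ (j a : ℕ), ((BC K n C0 z w j ((D ^ a)⁻¹ * θ) (ib K n z B)).card : ℝ) ≤ D ^ (A4 + a) := fun j a => by
      have h1 := card_BC (K := K) (n := n) (C0 := C0) (jz := z) w (wS_nonneg M K n g) (j := j) (h := (D ^ a)⁻¹ * θ)
        (P := ib K n z B)
      have h2 := h1.trans hlight
      have h3 : ((BC K n C0 z w j ((D ^ a)⁻¹ * θ) (ib K n z B)).card : ℝ) * ((D ^ a)⁻¹ * θ) ≤
          D ^ (A4 + a) * ((D ^ a)⁻¹ * θ) := by
        refine h2.trans (le_of_eq ?_)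
        rw [pow_add]
        field_simp
      exact le_of_mul_le_mul_right h3 (by positivity)
    have h3 := three hj hj0K h.int (A1 (ib K n z B)) (A0 (ib K n z B)) (fun τ hτ => BC_cap w (hj.trans hj0K) hτ)
      (fun τ hτ => BC_cap w hj0K hτ) hβ (cnt j1 a1) (cnt j0 a0) (h.amp B hBY)
    have h4 : ENNReal.ofReal ((β / 3) ^ 6) ≤ b6 M n B (sF g (G (ib K n z B))) := by
      rcases h3 with h3 | h3 | h3
      · exact absurd (Finset.mem_filter.2 ⟨hBY, h3⟩) hBF.2.1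
      · exact absurd (Finset.mem_filter.2 ⟨hBY, h3⟩) hBF.2.2.1
      · exact h3
    have h5 : ENNReal.ofReal (b * ((β / 3) ^ 2 * t)) < uF M K n g (G (ib K n z B)) B := by
      by_contra hcon
      push Not at hcon
      exact hBF.2.2.2 (Finset.mem_filter.2 ⟨hBY, h4, hcon⟩)
    have h6 := uF_le z h.hK hD hC h.hM h.int hQ.le h.msQ (h.loc B hBY) (GG_sub K n j1 j0 (A1 (ib K n z B)) (A0 (ib K n z B)))
    exact (ENNReal.ofReal_lt_ofReal_iff_of_nonneg (by positivity)).1 (h5.trans_le h6)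

end Vale.Agent.P076.H322
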