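import Vale.Agent.P076.H322.ST5

/-! # P076 / H322 : [ST], the thick plate -/

set_option autoImplicit false

open MeasureTheory Complex Set Vale.Agent.P122.C2 Vale.Agent.P122.AN Vale.Agent.P076.NS Vale.Agent.P076.H879
open scoped ENNReal NNReal FourierTransform

namespace Vale.Agent.P076.H322

variable {K n M : ℕ} {C0 β Q : ℝ} {g : Z2 → E3 → ℂ} {Y : Finset (Fin 3 → ℤ)}

/-- number of cubes of side `R / 2`, times `C0` -/
noncomputable def CY (C0 : ℝ) : ℝ := (4 * C0 + 3) ^ 3 * C0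

/-- `β` is not too small -/
theorem theta_lower (h : Dt K n M C0 β Q g Y) {J : ℕ} {Cb : ℝ} (hCb : 0 ≤ Cb)
    (NC : Cb * (sL K n * Q) < (2 ^ n) ^ J * (β ^ 2 * Y.card)) :
    Cb * Q ≤ (2 ^ n) ^ J * CY C0 * (2 ^ (K * n)) ^ 3 * (β ^ 2 * (C0 / 2 ^ (K * n)) ^ (1 / 3 : ℝ)) := by
  have hC := h.hC0
  have hL := h.hL
  have hQ := h.Q0
  have hβ := h.β0
  have hs := sL_pos K n
  have hts := sL_mul (K := K) (n := n) (γ := C0) (by linarith)
  have hg3 : 1 ≤ C0 ^ (1 / 3 : ℝ) := Real.one_le_rpow hC (by norm_num)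
  have hcard := H551.card_all h.hK (by have := h.hn; omega) (by linarith) hC h.dim h.loc
  set L : ℝ := 2 ^ (K * n) with hLd
  set D : ℝ := 2 ^ n with hDd
  set t : ℝ := (C0 / L) ^ (1 / 3 : ℝ) with htd
  have ht : 0 < t := by positivity
  have h2 : L ≤ t * sL K n := by rw [hts]; nlinarith
  have hD0 : 0 < D := by positivity
  refine le_of_mul_le_mul_left (a := L) ?_ (by linarith)
  calc L * (Cb * Q) ≤ (t * sL K n) * (Cb * Q) := mul_le_mul_of_nonneg_right h2 (by positivity)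
    _ = t * (Cb * (sL K n * Q)) := by ring
    _ ≤ t * (D ^ J * (β ^ 2 * Y.card)) := mul_le_mul_of_nonneg_left NC.le ht.le
    _ ≤ t * (D ^ J * (β ^ 2 * ((4 * C0 + 3) ^ 3 * C0 * L ^ 4))) := by gcongr
    _ = L * (D ^ J * CY C0 * L ^ 3 * (β ^ 2 * t)) := by unfold CY; ring

/-- the number of balls times `θ` -/
theorem balls_lower (h : Dt K n M C0 β Q g Y) {J : ℕ} {Cb : ℝ} (hCb : 0 ≤ Cb)
    (NC : Cb * (sL K n * Q) < (2 ^ n) ^ J * (β ^ 2 * Y.card)) {YF : Finset (Fin 3 → ℤ)} (hYF : YF ⊆ Y)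
    (hc : (Y.card : ℝ) ≤ 2 * YF.card) :
    Cb * Q < (2 ^ n) ^ J * (8 * C0 * 2 ^ (K * n)) * ((YF.image (ib K n (jz K n C0))).card *
      (β ^ 2 * (C0 / 2 ^ (K * n)) ^ (1 / 3 : ℝ))) := by
  have hC := h.hC0
  have hL := h.hL
  have hQ := h.Q0
  have hβ := h.β0
  have hs := sL_pos K n
  have hts := sL_mul (K := K) (n := n) (γ := C0) (by linarith)
  have hg3 : 1 ≤ C0 ^ (1 / 3 : ℝ) := Real.one_le_rpow hC (by norm_num)
  have hcard := card_cubes h hYF
  set L : ℝ := 2 ^ (K * n) with hLd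
  set D : ℝ := 2 ^ n with hDd
  set t : ℝ := (C0 / L) ^ (1 / 3 : ℝ) with htd
  have ht : 0 < t := by positivity
  have h2 : L ≤ t * sL K n := by rw [hts]; nlinarith
  have hD0 : 0 < D := by positivity
  refine lt_of_mul_lt_mul_left (a := L) ?_ (by linarith)
  calc L * (Cb * Q) ≤ (t * sL K n) * (Cb * Q) := mul_le_mul_of_nonneg_right h2 (by positivity)
    _ = t * (Cb * (sL K n * Q)) := by ring
    _ < t * (D ^ J * (β ^ 2 * Y.card)) := mul_lt_mul_of_pos_left NC ht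
    _ ≤ t * (D ^ J * (β ^ 2 * (2 * (4 * C0 * L ^ 2 * (YF.image (ib K n (jz K n C0))).card)))) := by
        gcongr
        linarith
    _ = L * (D ^ J * (8 * C0 * L) * ((YF.image (ib K n (jz K n C0))).card * (β ^ 2 * t))) := by ring

open Classical in
/-- the incidence structure -/
noncomputable def mkI (h : Dt K n M C0 β Q g Y) {YF : Finset (Fin 3 → ℤ)} (hYF : YF ⊆ Y)
    (G : ℤ × (Fin 2 → ℤ) → Finset Z2) (Th : ℝ) (hTh : 0 < Th)
    (hG : ∀ B ∈ YF, Th ≤ ∑ S ∈ (TP K n C0 (jz K n C0) (ib K n (jz K n C0) B)).filter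
      (fun S => S.τ ∈ G (ib K n (jz K n C0) B)), wS M K n g S) : Inc Nd where
  T := TT K n (C0 * 2 ^ n)
  w := wS M K n g
  o := oo K n (jz K n C0)
  v := fun S => slp n K S.τ
  Y := YF.image (ib K n (jz K n C0))
  G := fun P => (TP K n C0 (jz K n C0) P).filter fun S => S.τ ∈ G P
  C0 := 2 ^ n
  N := 4 * C0 * 2 ^ (K * n)
  Q := Cw * (C0 * 2 ^ n) * (((2:ℝ) ^ (2 * K * n))⁻¹ * Q)
  Th := Th
  C1 := by have := h.hD; linarith
  N1 := by
    have h1 := h.hL
    have h2 := h.hC0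
    nlinarith
  w0 := wS_nonneg M K n g
  Q0 := by
    have h1 := Cw_one
    have h2 := h.hC0
    have h3 := h.Q0
    positivity
  wQ := by
    have h1 := h.hD
    have h2 := h.hC0
    exact sum_wS h.hM (by nlinarith) h.int h.Q0.le h.msQ
  v1 := fun S hS k => by
    have h1 := slp_mem (mem_TT.1 hS).1 k
    rw [abs_of_nonneg h1.1]
    exact h1.2
  GT := fun P _ => (Finset.filter_subset _ _).trans (Finset.filter_subset _ _)
  thr := fun P _ S hS => (Finset.mem_filter.1 (Finset.mem_filter.1 hS).1).2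
  t0 := fun P hP => by
    obtain ⟨B, hB, rfl⟩ := Finset.mem_image.1 hP
    exact (ib_time h (hYF hB)).1
  tN := fun P hP => by
    obtain ⟨B, hB, rfl⟩ := Finset.mem_image.1 hP
    exact (ib_time h (hYF hB)).2
  Th0 := hTh
  ThG := fun P hP => by
    obtain ⟨B, hB, rfl⟩ := Finset.mem_image.1 hP
    exact hG B hB

end Vale.Agent.P076.H322
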