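import Mathlib

/-! # P076 / H322 : [ST], real inequalities -/

set_option autoImplicit false

namespace Vale.Agent.P076.H322.RR

variable {C0 Cw CY Cb D L θ Q m : ℝ} {J j2 k1 k j1 j0 l M : ℕ}

theorem nine (hD : 1 ≤ D) : (2 * D + 1) ^ 2 ≤ 9 * D ^ 2 := by nlinarith

/-- the tail is small; `m = 4 ^ M` -/
theorem tail (hm : 1 ≤ m) (hD : 0 < D) (hL : 0 < L) (hθ : 0 < θ) (hQ : 0 < Q) (hCY : 0 < CY)
    (hth : Cb * Q ≤ D ^ J * CY * L ^ 3 * θ) (qM : 18 * m * m * CY * D ^ j2 * D ^ J * L ≤ Cb * D ^ M) :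
    m * Q / (D ^ M * L ^ 2) ≤ (D ^ j2)⁻¹ * θ / 18 := by
  have hm0 : 0 < m := by linarith
  rw [div_le_iff₀ (by positivity)]
  have h0 : 18 * m * CY * D ^ j2 * D ^ J * L ≤ 18 * m * m * CY * D ^ j2 * D ^ J * L := by
    have h5 : 0 ≤ 18 * m * CY * D ^ j2 * D ^ J * L := by positivity
    have := mul_le_mul_of_nonneg_left hm h5
    linarith
  have h1 : 18 * m * D ^ j2 * Q * (D ^ J * CY * L ^ 3) ≤ D ^ M * L ^ 2 * θ * (D ^ J * CY * L ^ 3) := by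
    calc 18 * m * D ^ j2 * Q * (D ^ J * CY * L ^ 3)
        = (18 * m * CY * D ^ j2 * D ^ J * L) * (Q * L ^ 2) := by ring
      _ ≤ (Cb * D ^ M) * (Q * L ^ 2) := mul_le_mul_of_nonneg_right (h0.trans qM) (by positivity)
      _ = D ^ M * L ^ 2 * (Cb * Q) := by ring
      _ ≤ D ^ M * L ^ 2 * (D ^ J * CY * L ^ 3 * θ) := mul_le_mul_of_nonneg_left hth (by positivity)
      _ = _ := by ring
  have h2 := le_of_mul_le_mul_right h1 (by positivity)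
  have e2 : (D ^ j2)⁻¹ * θ / 18 * (D ^ M * L ^ 2) = (D ^ M * L ^ 2 * θ) / (18 * D ^ j2) := by field_simp
  rw [e2, le_div_iff₀ (by positivity)]
  linarith

/-- many balls; `c` = number of balls -/
theorem balls {c : ℝ} (hC0 : 0 < C0) (hm : 0 < m) (hD : 0 < D) (hL : 0 < L) (hQ : 0 < Q)
    (hba : Cb * Q < D ^ J * (8 * C0 * L) * (c * θ)) (qY : 1152 * C0 ^ 3 * Cw * m * D * D ^ j2 * D ^ J ≤ Cb * D ^ k1) :
    2 * (D ^ k1)⁻¹ * (4 * C0 * L) * (Cw * (C0 * D) * ((L ^ 2)⁻¹ * Q)) < c * (m⁻¹ * ((D ^ j2)⁻¹ * θ / 18)) := by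
  have h1 : (144 * C0 ^ 2 * Cw * m * D * D ^ j2 * Q) * (8 * C0 * D ^ J) < (c * θ * D ^ k1 * L) * (8 * C0 * D ^ J) := by
    calc (144 * C0 ^ 2 * Cw * m * D * D ^ j2 * Q) * (8 * C0 * D ^ J)
        = (1152 * C0 ^ 3 * Cw * m * D * D ^ j2 * D ^ J) * Q := by ring
      _ ≤ (Cb * D ^ k1) * Q := mul_le_mul_of_nonneg_right qY hQ.le
      _ = (Cb * Q) * D ^ k1 := by ring
      _ < (D ^ J * (8 * C0 * L) * (c * θ)) * D ^ k1 := mul_lt_mul_of_pos_right hba (by positivity)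
      _ = _ := by ring
  have h2 := lt_of_mul_lt_mul_right h1 (by positivity)
  have e1 : 2 * (D ^ k1)⁻¹ * (4 * C0 * L) * (Cw * (C0 * D) * ((L ^ 2)⁻¹ * Q)) = 8 * C0 ^ 2 * Cw * D * Q / (D ^ k1 * L) := by
    field_simp
    ring
  have e2 : c * (m⁻¹ * ((D ^ j2)⁻¹ * θ / 18)) = c * θ / (18 * m * D ^ j2) := by field_simp
  rw [e1, e2, div_lt_div_iff₀ (by positivity) (by positivity)]
  linarith

theorem rad1 (hC0 : 1 ≤ C0) (hD : 18 ≤ D) (hL : 0 < L) (qr : 9 * D ^ (k1 + 2) ≤ L) :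
    (2 * (L / D ^ (k1 + 3)) + 1) * (2 * D + 1) ^ 2 ≤ (D ^ k1)⁻¹ * (4 * C0 * L) / 2 := by
  have hD0 : 0 < D := by linarith
  have h1 : 18 * (L / D ^ (k1 + 1)) ≤ L / D ^ k1 := by
    rw [pow_succ, mul_div_assoc', div_le_div_iff₀ (by positivity) (by positivity)]
    have : 18 * (L * D ^ k1) ≤ D * (L * D ^ k1) := mul_le_mul_of_nonneg_right hD (by positivity)
    linarith
  have h2 : 9 * D ^ 2 ≤ L / D ^ k1 := by
    rw [le_div_iff₀ (by positivity)]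
    refine le_trans (le_of_eq ?_) qr
    rw [pow_add]; ring
  have h3 : L / D ^ k1 ≤ C0 * (L / D ^ k1) := le_mul_of_one_le_left (by positivity) hC0
  calc (2 * (L / D ^ (k1 + 3)) + 1) * (2 * D + 1) ^ 2 ≤ (2 * (L / D ^ (k1 + 3)) + 1) * (9 * D ^ 2) :=
        mul_le_mul_of_nonneg_left (nine (by linarith)) (by positivity)
    _ = 18 * (L / D ^ (k1 + 1)) + 9 * D ^ 2 := by
        rw [show k1 + 3 = k1 + 1 + 2 by ring, pow_add D (k1 + 1) 2]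
        field_simp
        ring
    _ ≤ L / D ^ k1 + L / D ^ k1 := add_le_add h1 h2
    _ ≤ C0 * (L / D ^ k1) + C0 * (L / D ^ k1) := by linarith
    _ = (D ^ k1)⁻¹ * (4 * C0 * L) / 2 := by field_simp; ring

theorem rad2 (hD : 0 < D) (qr2 : 12 * D ^ (k1 + j0 + 4) ≤ L) : 12 * D ≤ L / D ^ (k1 + 3) * (D ^ j0)⁻¹ := by
  rw [← div_eq_mul_inv, div_div, le_div_iff₀ (by positivity)]
  refine le_trans (le_of_eq ?_) qr2
  rw [← pow_add, show k1 + j0 + 4 = k1 + 3 + j0 + 1 by ring, pow_succ D (k1 + 3 + j0)]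
  ring

theorem lam_lo (hC0 : 1 ≤ C0) (hCw : 1 ≤ Cw) (hm : 0 < m) (hD : 1 ≤ D) (hL : 0 < L) (hθ : 0 < θ) (hQ : 0 < Q) (hCY : 0 < CY)
    (hth : Cb * Q ≤ D ^ J * CY * L ^ 3 * θ)
    (ql : 810 * m * Cw * CY * D ^ (j1 + k1 + j2 + J + 4) ≤ Cb * D ^ l) :
    (D ^ l)⁻¹ ≤ (D ^ j1)⁻¹ * (D ^ k1)⁻¹ * (4 * C0 * L) * (m⁻¹ * ((D ^ j2)⁻¹ * θ / 18)) /
      (4 * ((2 * D + 1) ^ 2 * (4 * D + 1)) * (Cw * (C0 * D) * ((L ^ 2)⁻¹ * Q))) := by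
  have hD0 : 0 < D := by linarith
  rw [le_div_iff₀ (by positivity)]
  have h1 : (810 * Cw * m * D ^ (4 + j1 + k1 + j2) * Q) * (D ^ J * CY) ≤ (L ^ 3 * θ * D ^ l) * (D ^ J * CY) := by
    calc (810 * Cw * m * D ^ (4 + j1 + k1 + j2) * Q) * (D ^ J * CY)
        = (810 * m * Cw * CY * D ^ (j1 + k1 + j2 + J + 4)) * Q := by
          rw [show j1 + k1 + j2 + J + 4 = (4 + j1 + k1 + j2) + J by ring, pow_add D (4 + j1 + k1 + j2) J]; ring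
      _ ≤ (Cb * D ^ l) * Q := mul_le_mul_of_nonneg_right ql hQ.le
      _ = D ^ l * (Cb * Q) := by ring
      _ ≤ D ^ l * (D ^ J * CY * L ^ 3 * θ) := mul_le_mul_of_nonneg_left hth (by positivity)
      _ = _ := by ring
  have h2 := le_of_mul_le_mul_right h1 (by positivity)
  have h3 : (2 * D + 1) ^ 2 * (4 * D + 1) ≤ (9 * D ^ 2) * (5 * D) :=
    mul_le_mul (nine hD) (by linarith) (by positivity) (by positivity)
  calc (D ^ l)⁻¹ * (4 * ((2 * D + 1) ^ 2 * (4 * D + 1)) * (Cw * (C0 * D) * ((L ^ 2)⁻¹ * Q)))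
      ≤ (D ^ l)⁻¹ * (4 * ((9 * D ^ 2) * (5 * D)) * (Cw * (C0 * D) * ((L ^ 2)⁻¹ * Q))) := by gcongr
    _ = (180 * Cw * C0 * D ^ 4 * Q) / (D ^ l * L ^ 2) := by field_simp; ring
    _ ≤ (4 * C0 * L * θ) / (D ^ j1 * D ^ k1 * (18 * m * D ^ j2)) := by
        rw [div_le_div_iff₀ (by positivity) (by positivity)]
        calc 180 * Cw * C0 * D ^ 4 * Q * (D ^ j1 * D ^ k1 * (18 * m * D ^ j2))
            = 4 * C0 * (810 * Cw * m * D ^ (4 + j1 + k1 + j2) * Q) := by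
              rw [pow_add, pow_add, pow_add]; ring
          _ ≤ 4 * C0 * (L ^ 3 * θ * D ^ l) := mul_le_mul_of_nonneg_left h2 (by positivity)
          _ = _ := by ring
    _ = (D ^ j1)⁻¹ * (D ^ k1)⁻¹ * (4 * C0 * L) * (m⁻¹ * ((D ^ j2)⁻¹ * θ / 18)) := by field_simp

theorem share1 {a1 : ℕ} (hm : 0 < m) (hD : 0 < D) (hθ : 0 < θ) (qa1 : 576 * m * D ^ j2 ≤ D ^ a1) :
    16 * ((D ^ a1)⁻¹ * θ) ≤ 1 / 2 * (m⁻¹ * ((D ^ j2)⁻¹ * θ / 18)) := by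
  have e1 : 16 * ((D ^ a1)⁻¹ * θ) = 16 * θ / D ^ a1 := by field_simp
  have e2 : 1 / 2 * (m⁻¹ * ((D ^ j2)⁻¹ * θ / 18)) = θ / (36 * m * D ^ j2) := by field_simp; ring
  rw [e1, e2, div_le_div_iff₀ (by positivity) (by positivity)]
  have := mul_le_mul_of_nonneg_left qa1 hθ.le
  linarith

theorem share0 {a0 : ℕ} (hm : 0 < m) (hD : 0 < D) :
    16 * ((D ^ a0)⁻¹ * θ) = 288 * m * D ^ j2 / D ^ a0 * (m⁻¹ * ((D ^ j2)⁻¹ * θ / 18)) := by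
  field_simp
  ring

theorem sig {a0 : ℕ} {lam : ℝ} (hD : 0 < D) (hlam : (D ^ l)⁻¹ ≤ lam)
    (qa0 : 1152 * m * D ^ j2 * (D ^ l) ^ 2 ≤ D ^ a0) : 288 * m * D ^ j2 / D ^ a0 ≤ lam ^ 2 / 4 := by
  have h1 : ((D ^ l)⁻¹) ^ 2 ≤ lam ^ 2 := pow_le_pow_left₀ (by positivity) hlam 2
  refine le_trans ?_ (div_le_div_of_nonneg_right h1 (by norm_num))
  rw [inv_pow, div_le_iff₀ (by positivity)]
  have e : ((D ^ l) ^ 2)⁻¹ / 4 * D ^ a0 = D ^ a0 / (4 * (D ^ l) ^ 2) := by field_simp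
  rw [e, le_div_iff₀ (by positivity)]
  linarith

theorem thick (hD : 0 < D) (hL : 0 < L) : 48 * D / (L / D ^ (k1 + 3) * (D ^ j0)⁻¹) = 48 * D ^ (k1 + j0 + 4) / L := by
  rw [show k1 + j0 + 4 = (k1 + 3) + j0 + 1 by ring, pow_succ D (k1 + 3 + j0), pow_add D (k1 + 3) j0]
  field_simp

end Vale.Agent.P076.H322.RR
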