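import Vale.Agent.P076.H322.ST6
import Vale.Agent.P076.H322.ST7

/-! # P076 / H322 : [ST], application of the combinatorial theorem -/

set_option autoImplicit false

open MeasureTheory Complex Set Vale.Agent.P122.C2 Vale.Agent.P122.AN Vale.Agent.P076.NS Vale.Agent.P076.H879
open scoped ENNReal NNReal FourierTransform

namespace Vale.Agent.P076.H322

variable {K n M : ℕ} {C0 β Q : ℝ} {g : Z2 → E3 → ℂ} {Y : Finset (Fin 3 → ℤ)}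

/-- the numerical hypotheses (`D = 2 ^ n`, `L = 2 ^ (K n)`) -/
structure Num (K n M j1 j0 J A4 a1 a0 j2 k1 l : ℕ) (c1 C0 S1 S0 SK Cb : ℝ) : Prop where
  hj : j1 ≤ j0
  hj0 : 5 * j0 + 1 ≤ K
  p1 : 0 ≤ S1
  p0 : 0 ≤ S0
  pK : 0 ≤ SK
  Cb0 : 0 < Cb
  D18 : (18:ℝ) ≤ 2 ^ n
  q1 : 72 * S1 * ((2 ^ n) ^ (A4 + a1)) ^ 2 * C0 ^ (2 / 3 : ℝ) * (2 ^ n) ^ J ≤ Cb
  q0 : 72 * S0 * ((2 ^ n) ^ (A4 + a0)) ^ 2 * C0 ^ (2 / 3 : ℝ) * (2 ^ n) ^ J ≤ Cb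
  qK : 72 * SK * (((2 ^ n) ^ j2)⁻¹) ^ c1 * C0 ^ (2 / 3 : ℝ) * (2 ^ n) ^ J ≤ Cb
  q4 : 1440 * C0 ^ 3 * Cw * (2 ^ n) ^ 3 * (2 ^ n) ^ J ≤ Cb * (2 ^ n) ^ A4
  qM : 18 * 4 ^ M * 4 ^ M * CY C0 * (2 ^ n) ^ j2 * (2 ^ n) ^ J * 2 ^ (K * n) ≤ Cb * (2 ^ n) ^ M
  qY : 1152 * C0 ^ 3 * Cw * 4 ^ M * 2 ^ n * (2 ^ n) ^ j2 * (2 ^ n) ^ J ≤ Cb * (2 ^ n) ^ k1
  qa1 : 576 * 4 ^ M * (2 ^ n) ^ j2 ≤ ((2:ℝ) ^ n) ^ a1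
  qa0 : 1152 * 4 ^ M * (2 ^ n) ^ j2 * ((2 ^ n) ^ l) ^ 2 ≤ ((2:ℝ) ^ n) ^ a0
  ql : 810 * 4 ^ M * Cw * CY C0 * (2 ^ n) ^ (j1 + k1 + j2 + J + 4) ≤ Cb * (2 ^ n) ^ l
  qr : 9 * (2 ^ n) ^ (k1 + 2) ≤ (2:ℝ) ^ (K * n)
  qr2 : 12 * (2 ^ n) ^ (k1 + j0 + 4) ≤ (2:ℝ) ^ (K * n)

/-- the plate -/
theorem plate_exists (h : Dt K n M C0 β Q g Y) {j1 j0 J A4 a1 a0 j2 k1 l : ℕ} {c1 S1 S0 SK Cb : ℝ}
    (q : Num K n M j1 j0 J A4 a1 a0 j2 k1 l c1 C0 S1 S0 SK Cb)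
    (hS1 : SCn C0 M K n j1 S1) (hS0 : SCn C0 M K n j0 S0) (hSK : Claim c1 C0 M K n j0 27 SK)
    (NC : Cb * (sL K n * Q) < (2 ^ n) ^ J * (β ^ 2 * Y.card)) :
    ∃ θ u b : ℝ, (((2 ^ n) ^ l)⁻¹) ^ 2 / 2 * (Cw * (C0 * 2 ^ n) * (((2:ℝ) ^ (2 * K * n))⁻¹ * Q)) ≤
      ∑ S ∈ (TT K n (C0 * 2 ^ n)).filter (fun S => |fn θ (slp n K S.τ) - u| ≤ 48 * (2 ^ n) ^ (k1 + j0 + 4) / 2 ^ (K * n) ∧
        |fn θ (oo K n (jz K n C0) S) - b| ≤ 48 * (2 ^ n) ^ (k1 + j0 + 4) / 2 ^ (K * n) * (4 * C0 * 2 ^ (K * n)) + 4 * 2 ^ n),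
        wS M K n g S := by
  classical
  obtain ⟨YF, hYF, hc, G, hG1, hG2, hG3⟩ := core1 h q.hj q.hj0 hS1 hS0 hSK q.p1 q.p0 q.pK q.q1 q.q0 q.qK q.q4 NC
  have hth := theta_lower h q.Cb0.le NC
  have hba := balls_lower h q.Cb0.le NC hYF hc
  have hC := h.hC0
  have hCw := Cw_one
  have hD := h.hD
  have hL := h.hL
  have hQ := h.Q0
  have hβ := h.β0
  have hCY : 0 < CY C0 := by unfold CY; positivity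
  have hD0 : (0:ℝ) < 2 ^ n := by positivity
  have hL0 : (0:ℝ) < 2 ^ (K * n) := by positivity
  have ht : 0 < (C0 / 2 ^ (K * n)) ^ (1 / 3 : ℝ) := by positivity
  have hθ : 0 < β ^ 2 * (C0 / 2 ^ (K * n)) ^ (1 / 3 : ℝ) := by positivity
  have hR : (2:ℝ) ^ (2 * K * n) = (2 ^ (K * n)) ^ 2 := by rw [← pow_mul]; congr 1; ring
  have hM4 : (0:ℝ) < 4 ^ M := by positivity
  set Th : ℝ := (4 ^ M)⁻¹ * (((2 ^ n) ^ j2)⁻¹ * (β ^ 2 * (C0 / 2 ^ (K * n)) ^ (1 / 3 : ℝ)) / 18) with hTh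
  have hTh0 : 0 < Th := by positivity
  have htail : ((2 ^ n / 4) ^ M)⁻¹ * (((2:ℝ) ^ (2 * K * n))⁻¹ * Q) ≤
      ((2 ^ n) ^ j2)⁻¹ * (β ^ 2 * (C0 / 2 ^ (K * n)) ^ (1 / 3 : ℝ)) / 18 := by
    have e1 : (((2:ℝ) ^ n / 4) ^ M)⁻¹ * (((2:ℝ) ^ (2 * K * n))⁻¹ * Q) = 4 ^ M * Q / ((2 ^ n) ^ M * (2 ^ (K * n)) ^ 2) := by
      rw [div_pow, hR]
      field_simp
    rw [e1]
    exact RR.tail (one_le_pow₀ (by norm_num)) hD0 hL0 hθ hQ hCY hth q.qM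
  have hG4 : ∀ B ∈ YF, Th ≤ ∑ S ∈ (TP K n C0 (jz K n C0) (ib K n (jz K n C0) B)).filter
      (fun S => S.τ ∈ G (ib K n (jz K n C0) B)), wS M K n g S := by
    intro B hB
    have h1 := hG3 B hB
    have e1 : ((2 ^ n) ^ j2)⁻¹ * ((β / 3) ^ 2 * (C0 / 2 ^ (K * n)) ^ (1 / 3 : ℝ)) =
      ((2 ^ n) ^ j2)⁻¹ * (β ^ 2 * (C0 / 2 ^ (K * n)) ^ (1 / 3 : ℝ)) / 18 +
      ((2 ^ n) ^ j2)⁻¹ * (β ^ 2 * (C0 / 2 ^ (K * n)) ^ (1 / 3 : ℝ)) / 18 := by ring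
    rw [e1] at h1
    rw [hTh, inv_mul_le_iff₀ hM4]
    linarith
  set I : Inc Nd := mkI h hYF G Th hTh0 hG4 with hI
  have hIN : I.N = 4 * C0 * 2 ^ (K * n) := rfl
  have hIQ : I.Q = Cw * (C0 * 2 ^ n) * (((2:ℝ) ^ (2 * K * n))⁻¹ * Q) := rfl
  have hIC : I.C0 = 2 ^ n := rfl
  have hITh : I.Th = Th := rfl
  have hIY : I.Y = YF.image (ib K n (jz K n C0)) := rfl
  have hQI0 : 0 < I.Q := I.Q0
  set lam : ℝ := ((2 ^ n) ^ j1)⁻¹ * ((2 ^ n) ^ k1)⁻¹ * I.N * I.Th / (4 * ((2 * I.C0 + 1) ^ 2 * (4 * I.C0 + 1)) * I.Q) with hlam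
  have hY : 2 * ((2 ^ n) ^ k1)⁻¹ * I.N * I.Q < I.Y.card * I.Th := by
    rw [hIN, hIQ, hIY, hITh, hR]
    exact RR.balls (by linarith) hM4 hD0 hL0 hQ hba q.qY
  have hr1 : (2 * (2 ^ (K * n) / (2 ^ n) ^ (k1 + 3)) + 1) * (2 * I.C0 + 1) ^ 2 ≤ ((2 ^ n) ^ k1)⁻¹ * I.N / 2 := by
    rw [hIC, hIN]
    exact RR.rad1 hC q.D18 hL0 q.qr
  have hr2 : 12 * I.C0 ≤ (2 ^ (K * n) / (2 ^ n) ^ (k1 + 3)) * ((2 ^ n) ^ j0)⁻¹ := by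
    rw [hIC]
    exact RR.rad2 hD0 q.qr2
  have hlam_lo : ((2 ^ n) ^ l)⁻¹ ≤ lam := by
    rw [hlam, hIC, hIN, hITh, hIQ, hR]
    exact RR.lam_lo hC hCw hM4 (by linarith) hL0 hθ hQ hCY hth q.ql
  have hshare : ∀ (j a : ℕ) (P : ℤ × (Fin 2 → ℤ)) (u : Fin 2 → ℝ), j ≤ K →
      (∀ θ' ∈ G P, anc K n j θ' ∉ BC K n C0 (jz K n C0) (wS M K n g) j
        (((2 ^ n) ^ a)⁻¹ * (β ^ 2 * (C0 / 2 ^ (K * n)) ^ (1 / 3 : ℝ))) P) →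
      ∑ S ∈ (I.G P).filter (fun S => ‖I.v S - u‖ ≤ ((2 ^ n) ^ j)⁻¹), I.w S ≤
        16 * (((2 ^ n) ^ a)⁻¹ * (β ^ 2 * (C0 / 2 ^ (K * n)) ^ (1 / 3 : ℝ))) := by
    intro j a P u hj hP
    refine share (K := K) (n := n) (C0 := C0) (jz := jz K n C0) (wS M K n g) hj (by positivity) u _ (wS_nonneg M K n g)
      ((Finset.filter_subset _ _).trans (Finset.filter_subset _ _)) (fun S hS => ?_) (fun S hS => ?_)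
    · exact hP _ (Finset.mem_filter.1 (Finset.mem_filter.1 hS).1).2
    · have h1 := (Finset.mem_filter.1 hS).2
      have e : (2:ℝ) ^ (j * n) = (2 ^ n) ^ j := by rw [← pow_mul, mul_comm]
      rw [e]
      exact h1
  have hs1 : ∀ P ∈ I.Y, ∀ u, ∑ j ∈ (I.G P).filter (fun j => ‖I.v j - u‖ ≤ ((2 ^ n) ^ j1)⁻¹), I.w j ≤
      (1 / 2) * ∑ j ∈ I.G P, I.w j := fun P hP u => by
    have h1 := hshare j1 a1 P u (q.hj.trans (by have := q.hj0; omega)) (fun θ' hθ' => (hG2 P θ' hθ').1)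
    have h2 := I.ThG P hP
    have h3 := RR.share1 hM4 hD0 hθ q.qa1
    rw [hITh, hTh] at h2
    linarith
  have hs0 : ∀ P ∈ I.Y, ∀ u, ∑ j ∈ (I.G P).filter (fun j => ‖I.v j - u‖ ≤ ((2 ^ n) ^ j0)⁻¹), I.w j ≤
      (288 * 4 ^ M * (2 ^ n) ^ j2 / (2 ^ n) ^ a0) * ∑ j ∈ I.G P, I.w j := fun P hP u => by
    have h1 := hshare j0 a0 P u (by have := q.hj0; omega) (fun θ' hθ' => (hG2 P θ' hθ').2)
    have h2 := I.ThG P hP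
    rw [RR.share0 (j2 := j2) hM4 hD0] at h1
    rw [hITh, hTh] at h2
    exact h1.trans (mul_le_mul_of_nonneg_left h2 (by positivity))
  have hσ := RR.sig hD0 hlam_lo q.qa0
  have hφ1 : ((2 ^ n) ^ j1)⁻¹ ≤ (1:ℝ) := inv_le_one_of_one_le₀ (one_le_pow₀ (by linarith))
  obtain ⟨_, θ', u, b, hfin⟩ := I.cs (κ := ((2 ^ n) ^ k1)⁻¹) (by positivity) (φ1 := ((2 ^ n) ^ j1)⁻¹) (by positivity) hφ1
    (φ0 := ((2 ^ n) ^ j0)⁻¹) (by positivity) (r := 2 ^ (K * n) / (2 ^ n) ^ (k1 + 3)) (by positivity) hY hr1 hr2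
    hlam hs1 hs0 hσ
  refine ⟨θ', u, b, ?_⟩
  rw [hIN, hIC, RR.thick hD0 hL0] at hfin
  refine le_trans ?_ hfin
  have h1 : (((2 ^ n) ^ l)⁻¹) ^ 2 ≤ lam ^ 2 := pow_le_pow_left₀ (by positivity) hlam_lo 2
  rw [← hIQ]
  exact mul_le_mul_of_nonneg_right (div_le_div_of_nonneg_right h1 (by norm_num)) hQI0.le

end Vale.Agent.P076.H322
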