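import Vale.Agent.P076.H322.ST8

/-! # P076 / H322 : [ST], end of the argument for fixed parameters -/

set_option autoImplicit false

open MeasureTheory Complex Set Vale.Agent.P122.C2 Vale.Agent.P122.AN Vale.Agent.P076.NS Vale.Agent.P076.H879
open scoped ENNReal NNReal FourierTransform

namespace Vale.Agent.P076.H322

variable {K n M : ℕ} {C0 β Q : ℝ} {g : Z2 → E3 → ℂ} {Y : Finset (Fin 3 → ℤ)}

theorem fn_oo (K n : ℕ) (z : ℤ) (θ : ℝ) (S : Nd) :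
    fn θ (oo K n z S) = fn θ (fun k => (S.o k : ℝ)) - ((z : ℝ) + 2 ^ (K * n) * (S.T : ℝ)) * fn θ (slp n K S.τ) := by
  unfold fn oo
  ring

theorem jz_le (h : Dt K n M C0 β Q g Y) : |((jz K n C0 : ℤ) : ℝ)| ≤ 2 * C0 * 2 ^ (K * n) := by
  have hL := h.hL
  have hC := h.hC0
  have h3 := Int.le_ceil (C0 * 2 ^ (K * n))
  have h4 := Int.ceil_lt_add_one (C0 * 2 ^ (K * n))
  have h7 : (8:ℝ) ≤ C0 * 2 ^ (K * n) := by nlinarith
  unfold jz
  push_cast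
  rw [abs_le]
  constructor <;> linarith

/-- the plate contradicts `NoPlD` -/
theorem no_plate (h : Dt K n M C0 β Q g Y) {c : ℝ} (hno : NoPlD M K n g c C0 Q) {k1 j0 l : ℕ}
    (qp : 48 * (2 ^ n) ^ (k1 + j0 + 4) * (4 * C0 + 3 * C0 * 2 ^ n) + 4 * 2 ^ n ≤ (2:ℝ) ^ (c * (K * n)))
    (qf : 6 * ((2 ^ n) ^ l) ^ 2 < (2:ℝ) ^ (c * (K * n))) {θ u b : ℝ}
    (hp : (((2 ^ n) ^ l)⁻¹) ^ 2 / 2 * (Cw * (C0 * 2 ^ n) * (((2:ℝ) ^ (2 * K * n))⁻¹ * Q)) ≤
      ∑ S ∈ (TT K n (C0 * 2 ^ n)).filter (fun S => |fn θ (slp n K S.τ) - u| ≤ 48 * (2 ^ n) ^ (k1 + j0 + 4) / 2 ^ (K * n) ∧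
        |fn θ (oo K n (jz K n C0) S) - b| ≤ 48 * (2 ^ n) ^ (k1 + j0 + 4) / 2 ^ (K * n) * (4 * C0 * 2 ^ (K * n)) + 4 * 2 ^ n),
        wS M K n g S) : False := by
  classical
  have hC := h.hC0
  have hCw := Cw_one
  have hD := h.hD
  have hL := h.hL
  have hQ := h.Q0
  have hjz := jz_le h
  have hD0 : (0:ℝ) < 2 ^ n := by positivity
  have hL0 : (0:ℝ) < 2 ^ (K * n) := by positivity
  have ha : 1 ≤ C0 * 2 ^ n := by nlinarith
  set F : Finset Nd := (TT K n (C0 * 2 ^ n)).filter (fun S => |fn θ (slp n K S.τ) - u| ≤ 48 * (2 ^ n) ^ (k1 + j0 + 4) / 2 ^ (K * n) ∧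
        |fn θ (oo K n (jz K n C0) S) - b| ≤ 48 * (2 ^ n) ^ (k1 + j0 + 4) / 2 ^ (K * n) * (4 * C0 * 2 ^ (K * n)) + 4 * 2 ^ n) with hF
  have hFT : F ⊆ TT K n (C0 * 2 ^ n) := Finset.filter_subset _ _
  set δ : ℝ := 48 * (2 ^ n) ^ (k1 + j0 + 4) with hδ
  have hδ0 : 0 < δ := by positivity
  have key : ∀ T ∈ F.image Nd.T, ∑ S ∈ F.filter (fun S => S.T = T), wS M K n g S ≤
      2 ^ (-c * (K * n)) * ((2 ^ (2 * K * n))⁻¹ * Q) := by
    intro T hT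
    obtain ⟨S0, hS0, hS0T⟩ := Finset.mem_image.1 hT
    have hTa : |(T : ℝ)| ≤ C0 * 2 ^ n := by
      rw [← hS0T]
      exact (mem_TT.1 (hFT hS0)).2.1
    have h1 := hno T θ u (b + ((jz K n C0 : ℤ) + 2 ^ (K * n) * (T : ℝ)) * u) (F.filter fun S => S.T = T) hTa (by
      intro S hS
      rw [Finset.mem_filter] at hS
      have hS1 := mem_TT.1 (hFT hS.1)
      have hS2 := (Finset.mem_filter.1 hS.1).2
      refine ⟨hS.2, ?_, ?_, hS1.2.2⟩
      · refine hS2.1.trans (div_le_div_of_nonneg_right ?_ hL0.le)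
        refine le_trans ?_ qp
        have : 1 ≤ 4 * C0 + 3 * C0 * 2 ^ n := by nlinarith
        nlinarith
      · have e := fn_oo K n (jz K n C0) θ S
        rw [hS.2] at e
        set x := fn θ (slp n K S.τ) with hx
        set A : ℝ := ((jz K n C0 : ℤ) : ℝ) + 2 ^ (K * n) * (T : ℝ) with hA
        have e2 : fn θ (fun k => (S.o k : ℝ)) - (b + A * u) = (fn θ (oo K n (jz K n C0) S) - b) + A * (x - u) := by
          rw [e]; ring
        have hAabs : |A| ≤ 3 * C0 * 2 ^ n * 2 ^ (K * n) := by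
          rw [hA]
          refine (abs_add_le _ _).trans ?_
          rw [abs_mul, abs_of_pos hL0]
          have h5 : (2:ℝ) ^ (K * n) * |(T:ℝ)| ≤ 2 ^ (K * n) * (C0 * 2 ^ n) := mul_le_mul_of_nonneg_left hTa hL0.le
          have h6 : 2 * C0 * 2 ^ (K * n) ≤ 2 * C0 * 2 ^ (K * n) * 2 ^ n := le_mul_of_one_le_right (by positivity) (by linarith)
          nlinarith
        rw [e2]
        refine (abs_add_le _ _).trans ?_
        rw [abs_mul]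
        have h7 : |A| * |x - u| ≤ 3 * C0 * 2 ^ n * 2 ^ (K * n) * (δ / 2 ^ (K * n)) :=
          mul_le_mul hAabs hS2.1 (abs_nonneg _) (by positivity)
        have h8 : 3 * C0 * 2 ^ n * 2 ^ (K * n) * (δ / 2 ^ (K * n)) = 3 * C0 * 2 ^ n * δ := by field_simp
        have h9 : δ / 2 ^ (K * n) * (4 * C0 * 2 ^ (K * n)) + 4 * 2 ^ n = 4 * C0 * δ + 4 * 2 ^ n := by field_simp
        have h10 := hS2.2
        rw [h9] at h10
        rw [h8] at h7
        linarith)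
    rw [sum_ofReal h.hM ha h.int hQ.le h.msQ ((Finset.filter_subset _ _).trans hFT)] at h1
    exact (ENNReal.ofReal_le_ofReal_iff (by positivity)).1 h1
  have hcard : ((F.image Nd.T).card : ℝ) ≤ 3 * (C0 * 2 ^ n) := by
    have h1 := card_int (S := F.image Nd.T) (a := -(C0 * 2 ^ n)) (b := C0 * 2 ^ n) (by linarith) (by
      intro T hT
      obtain ⟨S0, hS0, rfl⟩ := Finset.mem_image.1 hT
      have := abs_le.1 (mem_TT.1 (hFT hS0)).2.1
      exact ⟨this.1, this.2⟩)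
    linarith
  have hX0 : (0:ℝ) < (2 ^ (2 * K * n))⁻¹ * Q := by positivity
  have h1 : ∑ S ∈ F, wS M K n g S ≤ 3 * (C0 * 2 ^ n) * (2 ^ (-c * (K * n)) * ((2 ^ (2 * K * n))⁻¹ * Q)) := by
    calc ∑ S ∈ F, wS M K n g S = ∑ T ∈ F.image Nd.T, ∑ S ∈ F.filter (fun S => S.T = T), wS M K n g S :=
          (Finset.sum_fiberwise_of_maps_to (fun S hS => Finset.mem_image_of_mem _ hS) _).symm
      _ ≤ ∑ _T ∈ F.image Nd.T, 2 ^ (-c * (K * n)) * ((2 ^ (2 * K * n))⁻¹ * Q) := Finset.sum_le_sum key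
      _ = ((F.image Nd.T).card : ℝ) * (2 ^ (-c * (K * n)) * ((2 ^ (2 * K * n))⁻¹ * Q)) := by
          rw [Finset.sum_const, nsmul_eq_mul]
      _ ≤ _ := mul_le_mul_of_nonneg_right hcard (by positivity)
  have h2 := hp.trans h1
  have e1 : (2:ℝ) ^ (-c * (K * n)) = ((2:ℝ) ^ (c * (K * n)))⁻¹ := by
    rw [← Real.rpow_neg (by norm_num)]
    congr 1
    ring
  set P : ℝ := (2:ℝ) ^ (c * (K * n)) with hP
  have hP0 : 0 < P := by positivity
  set E : ℝ := ((2 ^ n) ^ l) ^ 2 with hE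
  have hE0 : 0 < E := by positivity
  set X : ℝ := (2 ^ (2 * K * n))⁻¹ * Q with hX
  rw [e1, inv_pow, ← hE] at h2
  have h3 : E⁻¹ / 2 * Cw ≤ 3 * P⁻¹ := by
    have h4 : (C0 * 2 ^ n * X) * (E⁻¹ / 2 * Cw) ≤ (C0 * 2 ^ n * X) * (3 * P⁻¹) := by
      calc _ = E⁻¹ / 2 * (Cw * (C0 * 2 ^ n) * X) := by ring
        _ ≤ _ := h2
        _ = _ := by ring
    exact le_of_mul_le_mul_left h4 (by positivity)
  have h5 : E⁻¹ / 2 ≤ 3 * P⁻¹ := le_trans (le_mul_of_one_le_right (by positivity) hCw) h3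
  have h6 : P ≤ 6 * E := by
    have h7 : (2 * E * P) * (E⁻¹ / 2) ≤ (2 * E * P) * (3 * P⁻¹) := mul_le_mul_of_nonneg_left h5 (by positivity)
    have e2 : (2 * E * P) * (E⁻¹ / 2) = P := by field_simp
    have e3 : (2 * E * P) * (3 * P⁻¹) = 6 * E := by field_simp; ring
    rw [e2, e3] at h7
    exact h7
  linarith

/-- the estimate for fixed parameters -/
theorem fixed (h : Dt K n M C0 β Q g Y) {j1 j0 J A4 a1 a0 j2 k1 l : ℕ} {c c1 S1 S0 SK Cb : ℝ}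
    (q : Num K n M j1 j0 J A4 a1 a0 j2 k1 l c1 C0 S1 S0 SK Cb)
    (hS1 : SCn C0 M K n j1 S1) (hS0 : SCn C0 M K n j0 S0) (hSK : Claim c1 C0 M K n j0 27 SK)
    (hno : NoPlD M K n g c C0 Q)
    (qp : 48 * (2 ^ n) ^ (k1 + j0 + 4) * (4 * C0 + 3 * C0 * 2 ^ n) + 4 * 2 ^ n ≤ (2:ℝ) ^ (c * (K * n)))
    (qf : 6 * ((2 ^ n) ^ l) ^ 2 < (2:ℝ) ^ (c * (K * n))) :
    (2 ^ n) ^ J * (β ^ 2 * Y.card) ≤ Cb * (sL K n * Q) := by
  by_contra hcon
  push Not at hcon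
  obtain ⟨θ, u, b, hp⟩ := plate_exists h q hS1 hS0 hSK hcon
  exact no_plate h hno qp qf hp

end Vale.Agent.P076.H322
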